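import Vale.Agent.P219.Relax.Seven.Cand.Rat
import Vale.Agent.P219.Relax.Seven.RootGen

/-!
# P219, dimension seven: candidates as fractions in the parameters

A candidate gives the rate and the two free functions as combinations of powers of the root with
coefficients rational in `σ`. Each quantity times a power of the common factor is then a fraction
in `σ` and `v`, the powers being merged with those of the candidate.
-/

noncomputable section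

open Set Real

namespace Vale.Agent.P219.CH.Relax.Seven.Cand

set_option linter.unusedSectionVars false
set_option linter.unusedSimpArgs false

open Vale.Agent.P219.Poly (E)
open _root_.Vale.Agent.P219.CH.Relax.Five (Pt yf)
open _root_.Vale.Agent.P219.CH.Relax.Six (zc zc_pos)
open _root_.Vale.Agent.P219.CH.Relax.Six.RootGen (val der den den_pos om tp)

/-- The value of a list of integer coefficients. -/
def rv : List ℤ → ℝ → ℝ
  | [], _ => 0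
  | a :: l, x => a + x * rv l x

/-- A polynomial in `σ` from its coefficients. -/
def horner : List ℤ → E
  | [] => .k 0
  | [a] => .k a
  | a :: l => .add (.k a) (.mul (.x 0) (horner l))

lemma sem_horner (σ v : ℝ) : ∀ l : List ℤ, E.sem (env σ v) (horner l) = rv l σ
  | [] => by simp [horner, rv, E.sem]
  | [a] => by simp [horner, rv, E.sem]
  | a :: b :: l => by
    have := sem_horner σ v (b :: l)
    simp [horner, rv, E.sem, this, env_zero]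

/-- A coefficient: a polynomial in `σ` over `(k + 1) * σ ^ s * (1 - σ) ^ m`. -/
structure Co where
  /-- The numerator. -/
  num : List ℤ
  /-- One less than the constant of the denominator. -/
  k : ℕ
  /-- The power of `σ`. -/
  s : ℕ
  /-- The power of `1 - σ`. -/
  m : ℕ

/-- The value of a coefficient. -/
def Co.val (c : Co) (σ : ℝ) : ℝ := rv c.num σ / ((c.k + 1 : ℕ) * (σ ^ c.s * (1 - σ) ^ c.m))

/-- A candidate: the rate, the odd free function up to the constant that its value at the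
centre fixes, and the even one. -/
structure Spec where
  /-- The rate. -/
  b : Co
  /-- The odd free function. -/
  C : List (Co × ℤ)
  /-- The even free function. -/
  F : List (Co × ℤ)

/-- The combination of a list of coefficients at `σ`. -/
def comb (L : List (Co × ℤ)) (σ : ℝ) : List (ℝ × ℤ) := L.map fun a => (a.1.val σ, a.2)

/-- The coefficient that the value at the centre fixes. -/
def Spec.fix (K : Spec) (σ : ℝ) : ℝ :=
  -(26 * K.b.val σ / 15 + 2 * K.b.val σ * (1 - σ ^ 2) / 5) - val (comb K.C σ) 1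

/-- The odd combination. -/
def Spec.lstC (K : Spec) (σ : ℝ) : List (ℝ × ℤ) := (K.fix σ, 0) :: comb K.C σ

/-- The even combination. -/
def Spec.lstF (K : Spec) (σ : ℝ) : List (ℝ × ℤ) := comb K.F σ

/-- The free functions of a candidate. -/
def Spec.gen (K : Spec) (σ : ℝ) : Gen :=
  RootGen.gen (1 - σ ^ 2) (K.b.val σ) (K.lstC σ) (K.lstF σ)

/-- The point at the contact. -/
def ptC (K : Spec) (σ v : ℝ) : Pt :=
  ptIn (1 - σ ^ 2) (Tan.wtOf (1 - σ ^ 2) (K.gen σ)) (tp σ v)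

/-- The constant of the concavity. -/
def qOf (σ : ℝ) : ℝ := 2 * (1 - σ ^ 2) / (2 - σ ^ 2)

/-! ## The fractions -/

/-- The contact. -/
def tR : RE := ⟨.mul (.k 2) (.x 1), ⟨0, 0, 0, 1, 0, 0, 0, 0⟩, 1⟩
/-- Its inverse. -/
def itR : RE := ⟨nE, ⟨0, 0, 1, 0, 0, 0, 0, 0⟩, 2⟩
/-- The root. -/
def omR : RE := ⟨oE, ⟨0, 0, 0, 1, 0, 0, 0, 0⟩, 1⟩
/-- Its inverse. -/
def iomR : RE := ⟨nE, ⟨0, 0, 0, 0, 1, 0, 0, 0⟩, 1⟩
/-- `e`. -/
def eR : RE := .ofE eE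
/-- The concavity constant. -/
def qR : RE := ⟨.mul (.k 2) eE, ⟨0, 0, 0, 0, 0, 1, 0, 0⟩, 1⟩
/-- The inverse of `1 - q t ^ 2`. -/
def izR : RE := ⟨.mul rE (.pow nE 2), ⟨0, 0, 0, 0, 0, 0, 1, 0⟩, 1⟩
/-- The inverse of the comparison factor at the contact. -/
def inqR : RE := ⟨.mul (.pow rE 2) (.pow nE 4), ⟨0, 0, 0, 0, 0, 0, 0, 1⟩, 1⟩
/-- An integer. -/
def iR (z : ℤ) : RE := .ofQ z 1
/-- A half. -/
def hR : RE := .ofQ 1 2
/-- An integer power of the root. -/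
def zpR (n : ℤ) : RE := if 0 ≤ n then omR.pow n.toNat else iomR.pow (-n).toNat
/-- An integer power of the common factor. -/
def yR (j : ℤ) : RE := zpR (2 * j)
/-- `x = t ^ 2`. -/
def xR : RE := tR.pow 2
/-- `1 - x`. -/
def wR : RE := (iR 1).sub xR
/-- A coefficient. -/
def coR (c : Co) : RE := ⟨horner c.num, ⟨c.s, c.m, 0, 0, 0, 0, 0, 0⟩, c.k + 1⟩
/-- A list of coefficients. -/
def combR (L : List (Co × ℤ)) : List (RE × ℤ) := L.map fun a => (coR a.1, a.2)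

/-- The coefficients of the derivative. -/
def derR (L : List (RE × ℤ)) : List (RE × ℤ) :=
  L.map fun a => (((RE.ofQ (-a.2) 2).mul eR).mul a.1, a.2 - 2)

/-- The combination times a power of the common factor. -/
def valR (j : ℤ) : List (RE × ℤ) → RE
  | [] => iR 0
  | [a] => a.1.mul (zpR (a.2 + 2 * j))
  | a :: L => (a.1.mul (zpR (a.2 + 2 * j))).add (valR j L)

/-- The sum of the coefficients. -/
def val1R : List (RE × ℤ) → RE
  | [] => iR 0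
  | [a] => a.1
  | a :: L => a.1.add (val1R L)

/-- The linear combination `1 + e x`. -/
def epR : RE := (iR 1).add (eR.mul xR)
/-- The derivative of the product of the complements. -/
def l1R : RE := (((iR 2).mul eR).mul xR).sub ((iR 1).add eR)
/-- The numerator at the contact. -/
def cnR : RE := ((iR 5).add ((((iR 5).mul eR).sub (iR 11)).mul xR)).add (eR.mul (xR.pow 2))
/-- Its derivative. -/
def cn1R : RE := (((iR 5).mul eR).sub (iR 11)).add (((iR 2).mul eR).mul xR)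

variable (K : Spec) (j : ℤ)

/-- The rate. -/
def bR : RE := coR K.b
/-- The fixed coefficient. -/
def fixR : RE :=
  (((RE.ofQ 26 15).mul (bR K)).add (((RE.ofQ 2 5).mul (bR K)).mul eR)).neg.sub
    (val1R (combR K.C))
/-- The odd combination. -/
def cL : List (RE × ℤ) := (fixR K, 0) :: combR K.C
/-- The even combination. -/
def fL : List (RE × ℤ) := combR K.F
/-- A derivative of a free function, times `y ^ j`. -/
def c0R : RE := valR j (cL K)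
/-- A derivative of a free function, times `y ^ j`. -/
def f0R : RE := valR j (fL K)
/-- A derivative of a free function, times `y ^ j`. -/
def c1R : RE := valR j (derR (cL K))
/-- A derivative of a free function, times `y ^ j`. -/
def f1R : RE := valR j (derR (fL K))
/-- A derivative of a free function, times `y ^ j`. -/
def c2R : RE := valR j (derR (derR (cL K)))
/-- A derivative of a free function, times `y ^ j`. -/
def f2R : RE := valR j (derR (derR (fL K)))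
/-- A derivative of a free function, times `y ^ j`. -/
def c3R : RE := valR j (derR (derR (derR (cL K))))
/-- A derivative of a free function, times `y ^ j`. -/
def f3R : RE := valR j (derR (derR (derR (fL K))))
/-- A derivative of a free function, times `y ^ j`. -/
def c4R : RE := valR j (derR (derR (derR (derR (cL K)))))
/-- A derivative of a free function, times `y ^ j`. -/
def f4R : RE := valR j (derR (derR (derR (derR (fL K)))))
/-- `Tan.fa`, times `y ^ j`. -/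
def fa0R : RE := (((RE.ofQ (-2) 3).mul (bR K)).mul (yR j)).add (xR.mul (c0R K j))
/-- `Tan.fa1`, times `y ^ j`. -/
def fa1R : RE := (c0R K j).add (xR.mul (c1R K j))
/-- `Tan.fa2`, times `y ^ j`. -/
def fa2R : RE := ((iR 2).mul (c1R K j)).add (xR.mul (c2R K j))
/-- `Tan.fa3`, times `y ^ j`. -/
def fa3R : RE := ((iR 3).mul (c2R K j)).add (xR.mul (c3R K j))
/-- `Tan.fa4`, times `y ^ j`. -/
def fa4R : RE := ((iR 4).mul (c3R K j)).add (xR.mul (c4R K j))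
/-- `Tan.rt`, times `y ^ j`. -/
def rt0R : RE := ((((iR 9).mul (fa0R K j)).sub ((iR 3).mul (c0R K j))).sub (((iR 2).mul wR).mul (fa1R K j))).sub ((((iR 2).mul (bR K)).mul eR).mul (yR (j - 1)))
/-- `Tan.rt1`, times `y ^ j`. -/
def rt1R : RE := ((((iR 11).mul (fa1R K j)).sub ((iR 3).mul (c1R K j))).sub (((iR 2).mul wR).mul (fa2R K j))).sub ((((iR 2).mul (bR K)).mul (eR.pow 2)).mul (yR (j - 2)))
/-- `Tan.rt2`, times `y ^ j`. -/
def rt2R : RE := ((((iR 13).mul (fa2R K j)).sub ((iR 3).mul (c2R K j))).sub (((iR 2).mul wR).mul (fa3R K j))).sub ((((iR 4).mul (bR K)).mul (eR.pow 3)).mul (yR (j - 3)))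
/-- `Tan.rt3`, times `y ^ j`. -/
def rt3R : RE := ((((iR 15).mul (fa3R K j)).sub ((iR 3).mul (c3R K j))).sub (((iR 2).mul wR).mul (fa4R K j))).sub ((((iR 12).mul (bR K)).mul (eR.pow 4)).mul (yR (j - 4)))
/-- `Tan.ro`, times `y ^ j`. -/
def ro0R : RE := ((((iR 12).mul xR).sub (iR 6)).mul (f0R K j)).sub ((((iR 2).mul xR).mul wR).mul (f1R K j))
/-- `Tan.ro1`, times `y ^ j`. -/
def ro1R : RE := (((iR 12).mul (f0R K j)).add ((((iR 16).mul xR).sub (iR 8)).mul (f1R K j))).sub ((((iR 2).mul xR).mul wR).mul (f2R K j))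
/-- `Tan.ro2`, times `y ^ j`. -/
def ro2R : RE := (((iR 28).mul (f1R K j)).add ((((iR 20).mul xR).sub (iR 10)).mul (f2R K j))).sub ((((iR 2).mul xR).mul wR).mul (f3R K j))
/-- `Tan.ro3`, times `y ^ j`. -/
def ro3R : RE := (((iR 48).mul (f2R K j)).add ((((iR 24).mul xR).sub (iR 12)).mul (f3R K j))).sub ((((iR 2).mul xR).mul wR).mul (f4R K j))
/-- `Tan.wa`, times `y ^ j`. -/
def wa0R : RE := ((RE.ofQ 1 12).mul (rt0R K (j + 6)))
/-- `Tan.wa1`, times `y ^ j`. -/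
def wa1R : RE := ((RE.ofQ 1 12).mul ((rt1R K (j + 6)).add (((iR (-6)).mul eR).mul (rt0R K (j + 5)))))
/-- `Tan.wa2`, times `y ^ j`. -/
def wa2R : RE := ((RE.ofQ 1 12).mul (((rt2R K (j + 6)).add (((iR (-12)).mul eR).mul (rt1R K (j + 5)))).add (((iR (30)).mul (eR.pow 2)).mul (rt0R K (j + 4)))))
/-- `Tan.wa3`, times `y ^ j`. -/
def wa3R : RE := ((RE.ofQ 1 12).mul ((((rt3R K (j + 6)).add (((iR (-18)).mul eR).mul (rt2R K (j + 5)))).add (((iR (90)).mul (eR.pow 2)).mul (rt1R K (j + 4)))).add (((iR (-120)).mul (eR.pow 3)).mul (rt0R K (j + 3)))))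
/-- `Tan.wo`, times `y ^ j`. -/
def wo0R : RE := (epR.mul (yR (j - 1))).add ((RE.ofQ 1 12).mul (ro0R K (j + 6)))
/-- `Tan.wo1`, times `y ^ j`. -/
def wo1R : RE := (((iR 2).mul eR).mul (yR (j - 2))).add ((RE.ofQ 1 12).mul ((ro1R K (j + 6)).add (((iR (-6)).mul eR).mul (ro0R K (j + 5)))))
/-- `Tan.wo2`, times `y ^ j`. -/
def wo2R : RE := (((iR 4).mul (eR.pow 2)).mul (yR (j - 3))).add ((RE.ofQ 1 12).mul (((ro2R K (j + 6)).add (((iR (-12)).mul eR).mul (ro1R K (j + 5)))).add (((iR (30)).mul (eR.pow 2)).mul (ro0R K (j + 4)))))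
/-- `Tan.wo3`, times `y ^ j`. -/
def wo3R : RE := (((iR 12).mul (eR.pow 3)).mul (yR (j - 4))).add ((RE.ofQ 1 12).mul ((((ro3R K (j + 6)).add (((iR (-18)).mul eR).mul (ro2R K (j + 5)))).add (((iR (90)).mul (eR.pow 2)).mul (ro1R K (j + 4)))).add (((iR (-120)).mul (eR.pow 3)).mul (ro0R K (j + 3)))))
/-- `Tan.pa`, times `y ^ j`. -/
def paR : RE := (((fa0R K (j + 5)).add (((iR 2).mul xR).mul (wa1R K j))).sub ((iR 2).mul (wa0R K j))).add (((iR 5).mul epR).mul (wa0R K (j - 1)))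
/-- `Tan.pa1`, times `y ^ j`. -/
def pa1R : RE := ((((fa1R K (j + 5)).sub (((iR 5).mul eR).mul (fa0R K (j + 4)))).add (((iR 2).mul xR).mul (wa2R K j))).add (((iR 5).mul epR).mul (wa1R K (j - 1)))).add (((iR 10).mul eR).mul (wa0R K (j - 2)))
/-- `Tan.po`, times `y ^ j`. -/
def poR : RE := ((xR.mul ((f0R K (j + 5)).add ((iR 2).mul (wo1R K j)))).add (((iR 5).mul epR).mul (wo0R K (j - 1)))).sub (wo0R K j)
/-- `Tan.po1`, times `y ^ j`. -/
def po1R : RE := (((((f0R K (j + 5)).add ((iR 2).mul (wo1R K j))).add (xR.mul (((f1R K (j + 5)).sub (((iR 5).mul eR).mul (f0R K (j + 4)))).add ((iR 2).mul (wo2R K j))))).add (((iR 5).mul epR).mul (wo1R K (j - 1)))).sub (wo1R K j)).add (((iR 10).mul eR).mul (wo0R K (j - 2)))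
/-- `Tan.ma`, times `y ^ j`. -/
def maR : RE := hR.mul ((wR.mul ((((iR 2).mul xR).mul (wa1R K (j + 1))).sub ((iR 2).mul (wa0R K (j + 1))))).add (cnR.mul (wa0R K j)))
/-- `Tan.mo`, times `y ^ j`. -/
def moR : RE := (xR.mul (yR j)).add (hR.mul ((wR.mul ((((iR 2).mul xR).mul (wo1R K (j + 1))).sub (wo0R K (j + 1)))).add (cnR.mul (wo0R K j))))
/-- `Tan.ma1`, times `y ^ j`. -/
def ma1R : RE := hR.mul ((((l1R.mul ((((iR 2).mul xR).mul (wa1R K j)).sub ((iR 2).mul (wa0R K j)))).add (wR.mul (((iR 2).mul xR).mul (wa2R K (j + 1))))).add (cn1R.mul (wa0R K j))).add (cnR.mul (wa1R K j)))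
/-- `Tan.mo1`, times `y ^ j`. -/
def mo1R : RE := (yR j).add (hR.mul ((((l1R.mul ((((iR 2).mul xR).mul (wo1R K j)).sub (wo0R K j))).add (wR.mul ((wo1R K (j + 1)).add (((iR 2).mul xR).mul (wo2R K (j + 1)))))).add (cn1R.mul (wo0R K j))).add (cnR.mul (wo1R K j))))
/-- `Tan.ma2`, times `y ^ j`. -/
def ma2R : RE := hR.mul (((((((iR 2).mul eR).mul ((((iR 2).mul xR).mul (wa1R K j)).sub ((iR 2).mul (wa0R K j)))).add (((iR 2).mul l1R).mul (((iR 2).mul xR).mul (wa2R K j)))).add (wR.mul (((iR 2).mul (wa2R K (j + 1))).add (((iR 2).mul xR).mul (wa3R K (j + 1)))))).add (((iR 2).mul eR).mul (wa0R K j))).add ((((iR 2).mul cn1R).mul (wa1R K j)).add (cnR.mul (wa2R K j))))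
/-- `Tan.mo2`, times `y ^ j`. -/
def mo2R : RE := hR.mul (((((((iR 2).mul eR).mul ((((iR 2).mul xR).mul (wo1R K j)).sub (wo0R K j))).add (((iR 2).mul l1R).mul ((wo1R K j).add (((iR 2).mul xR).mul (wo2R K j))))).add (wR.mul (((iR 3).mul (wo2R K (j + 1))).add (((iR 2).mul xR).mul (wo3R K (j + 1)))))).add (((iR 2).mul eR).mul (wo0R K j))).add ((((iR 2).mul cn1R).mul (wo1R K j)).add (cnR.mul (wo2R K j))))
/-- The slope of the marginal coefficient, the odd part over `t`. -/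
def aoR : RE :=
  ((iR 2).mul ((moR K (-6)).add (xR.mul (mo1R K (-6))))).add
    ((((iR 12).mul eR).mul xR).mul (moR K (-7)))
/-- Its derivative. -/
def ao1R : RE :=
  (((iR 2).mul (((iR 2).mul (mo1R K (-6))).add (xR.mul (mo2R K (-6))))).add
    (((iR 24).mul eR).mul ((moR K (-7)).add (xR.mul (mo1R K (-7)))))).add
      ((((iR 84).mul (eR.pow 2)).mul xR).mul (moR K (-8)))
/-- The derivative of the even part. -/
def ae1R : RE :=
  ((((((iR 3).mul (ma1R K (-6))).add (((iR 2).mul xR).mul (ma2R K (-6)))).add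
    (((iR 6).mul eR).mul ((maR K (-7)).add (((iR 2).mul xR).mul (ma1R K (-7)))))).add
      (((iR 12).mul eR).mul ((maR K (-7)).add (xR.mul (ma1R K (-7)))))).add
        ((((iR 84).mul (eR.pow 2)).mul xR).mul (maR K (-8)))).sub
          (((bR K).mul eR).mul (yR (-2)))
/-- The weight at the contact. -/
def vR : RE := ((wa0R K 0).mul (itR.pow 2)).add ((wo0R K 0).mul itR)
/-- Its derivative. -/
def v1R : RE :=
  (((((iR 2).mul (wa1R K 0)).mul itR).sub (((iR 2).mul (wa0R K 0)).mul (itR.pow 3))).add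
    ((iR 2).mul (wo1R K 0))).sub ((wo0R K 0).mul (itR.pow 2))
/-- The slope in the cosine. -/
def gsR : RE := ((paR K 0).mul (itR.pow 3)).add ((poR K 0).mul (itR.pow 2))
/-- Its derivative. -/
def gs1R : RE :=
  (((((iR 2).mul (pa1R K 0)).mul (itR.pow 2)).sub (((iR 3).mul (paR K 0)).mul (itR.pow 4))).add
    (((iR 2).mul (po1R K 0)).mul itR)).sub (((iR 2).mul (poR K 0)).mul (itR.pow 3))
/-- `U`. -/
def uR : RE := (vR K).sub (tR.mul (gsR K))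
/-- The derivative of `U`. -/
def u1R : RE := (hR.mul (yR 1)).mul (((v1R K).sub (gsR K)).sub (tR.mul (gs1R K)))
/-- The derivative of `G`. -/
def g1R : RE := (hR.mul (yR 1)).mul (gs1R K)
/-- `p`. -/
def pR : RE := (hR.mul itR).mul epR
/-- `g`. -/
def gR : RE := (hR.mul itR).mul (yR 1)

/-! ## They represent -/

/-- The parameters. -/
structure Param (σ v : ℝ) : Prop where
  hσ : σ ∈ Ioo (0 : ℝ) 1
  hv : v ∈ Ioc (0 : ℝ) 1

lemma e_mem {σ : ℝ} (h : σ ∈ Ioo (0 : ℝ) 1) : 1 - σ ^ 2 ∈ Ioo (0 : ℝ) 1 :=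
  ⟨sub_pos.2 (pow_lt_one₀ h.1.le h.2 two_ne_zero), sub_lt_self 1 (pow_pos h.1 2)⟩

/-- The fourth derivatives of a candidate. -/
def Spec.four (K : Spec) {σ : ℝ} (h : σ ∈ Ioo (0 : ℝ) 1) : (K.gen σ).Four :=
  RootGen.four (e_mem h) _ _ _

namespace Param

variable {σ v : ℝ} (h : Param σ v)
include h

lemma sem_n : E.sem (env σ v) nE = den σ v := by
  simp [nE, E.sem, env_zero, env_one, den]

lemma sem_o : E.sem (env σ v) oE = om σ v * den σ v := by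
  rw [om, div_mul_cancel₀ _ (den_pos h.hσ v).ne']
  simp [oE, E.sem, env_zero, env_one]
  ring

lemma om_pos : 0 < om σ v := by
  refine div_pos ?_ (den_pos h.hσ v)
  have : (1 - σ) * v ^ 2 ≤ 1 - σ :=
    mul_le_of_le_one_right (sub_nonneg.2 h.hσ.2.le) (pow_le_one₀ h.hv.1.le h.hv.2)
  linarith [h.hσ.1]

lemma t_pos : 0 < tp σ v := div_pos (mul_pos two_pos h.hv.1) (den_pos h.hσ v)

lemma t_le : tp σ v ≤ 1 := by
  rw [tp, div_le_one (den_pos h.hσ v), den]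
  nlinarith [mul_nonneg (sub_nonneg.2 h.hσ.2.le) (sq_nonneg (1 - v)),
    mul_le_mul_of_nonneg_left h.hv.2 h.hσ.1.le]

lemma t_mem : tp σ v ∈ Ioc (0 : ℝ) 1 := ⟨h.t_pos, h.t_le⟩

lemma om_sq : om σ v ^ 2 = Tan.yl (1 - σ ^ 2) (tp σ v ^ 2) := by
  have := (den_pos h.hσ v).ne'
  rw [Tan.yl, om, tp]
  field_simp
  rw [den]
  ring

lemma sqrt_yl : √(Tan.yl (1 - σ ^ 2) (tp σ v ^ 2)) = om σ v := by
  rw [← h.om_sq, sqrt_sq h.om_pos.le]

lemma y_ne : Tan.yl (1 - σ ^ 2) (tp σ v ^ 2) ≠ 0 := by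
  rw [← h.om_sq]
  exact pow_ne_zero 2 h.om_pos.ne'

lemma r_pos : 0 < 2 - σ ^ 2 := by linarith [pow_le_one₀ (n := 2) h.hσ.1.le h.hσ.2.le]

lemma sem_r : E.sem (env σ v) rE = 2 - σ ^ 2 := by
  simp [rE, E.sem, env_zero, sub_eq_add_neg]

lemma q_mem : qOf σ ∈ Ico (0 : ℝ) 1 := by
  have he := e_mem h.hσ
  rw [qOf]
  exact ⟨div_nonneg (mul_nonneg zero_le_two he.1.le) h.r_pos.le,
    (div_lt_one h.r_pos).2 (by linarith [pow_pos h.hσ.1 2])⟩

lemma sem_z : E.sem (env σ v) zE = (2 - σ ^ 2) * den σ v ^ 2 * zc (qOf σ) (tp σ v) := by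
  have := (den_pos h.hσ v).ne'
  have := h.r_pos.ne'
  simp [zc, qOf, tp, zE, E.sem, h.sem_n, h.sem_r, eE, env_zero, env_one]
  field_simp
  ring

lemma sem_w : E.sem (env σ v) wE = (2 - σ ^ 2) ^ 2 * den σ v ^ 4 * nq (qOf σ) (tp σ v) := by
  have := (den_pos h.hσ v).ne'
  have := h.r_pos.ne'
  simp [nq, qOf, tp, wE, E.sem, h.sem_n, h.sem_r, eE, env_zero, env_one]
  field_simp
  ring

lemma z_pos : 0 < zc (qOf σ) (tp σ v) := zc_pos h.q_mem (Ioc_subset_Icc_self h.t_mem)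

lemma val_pos (e : Ex) : 0 < e.val σ v := by
  have hn : 0 < E.sem (env σ v) nE := h.sem_n ▸ den_pos h.hσ v
  have ho : 0 < E.sem (env σ v) oE := h.sem_o ▸ mul_pos h.om_pos (den_pos h.hσ v)
  have hr : 0 < E.sem (env σ v) rE := h.sem_r ▸ h.r_pos
  have hz : 0 < E.sem (env σ v) zE :=
    h.sem_z ▸ mul_pos (mul_pos h.r_pos (pow_pos (den_pos h.hσ v) 2)) h.z_pos
  have hw : 0 < E.sem (env σ v) wE :=
    h.sem_w ▸ mul_pos (mul_pos (pow_pos h.r_pos 2) (pow_pos (den_pos h.hσ v) 4)) (nq_pos _ _)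
  have h0 : 0 < E.sem (env σ v) (.x 0) := h.hσ.1
  have hu : 0 < E.sem (env σ v) (.bar 0) := sub_pos.2 h.hσ.2
  have h1 : 0 < E.sem (env σ v) (.x 1) := h.hv.1
  simp only [Ex.val, Ex.expr, E.sem] at h0 hu h1 ⊢
  positivity

lemma rep_t : Rep σ v tR (tp σ v) := by
  have := (den_pos h.hσ v).ne'
  refine ⟨one_pos, ?_⟩
  simp [tR, Ex.val, Ex.expr, E.sem, h.sem_n, tp, env_zero, env_one]
  field_simp

lemma rep_it : Rep σ v itR (tp σ v)⁻¹ := by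
  have := h.hv.1.ne'
  refine ⟨two_pos, ?_⟩
  simp [itR, Ex.val, Ex.expr, E.sem, h.sem_n, tp, env_zero, env_one]
  field_simp

lemma rep_om : Rep σ v omR (om σ v) := by
  refine ⟨one_pos, ?_⟩
  simp [omR, Ex.val, Ex.expr, E.sem, h.sem_n, h.sem_o]

lemma rep_iom : Rep σ v iomR (om σ v)⁻¹ := by
  refine ⟨one_pos, ?_⟩
  simp [iomR, Ex.val, Ex.expr, E.sem, h.sem_n, h.sem_o, h.om_pos.ne']

lemma rep_e : Rep σ v eR (1 - σ ^ 2) :=
  (Rep.ofE _).congr (by simp [eE, E.sem, env_zero, sub_eq_add_neg])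

lemma rep_q : Rep σ v qR (qOf σ) := by
  have := h.r_pos.ne'
  refine ⟨one_pos, ?_⟩
  simp [qR, qOf, Ex.val, Ex.expr, E.sem, h.sem_r, eE, env_zero, ← sub_eq_add_neg]
  field_simp

lemma rep_iz : Rep σ v izR (zc (qOf σ) (tp σ v))⁻¹ := by
  have := h.z_pos.ne'
  refine ⟨one_pos, ?_⟩
  simp [izR, Ex.val, Ex.expr, E.sem, h.sem_n, h.sem_r, h.sem_z]
  field_simp

lemma rep_inq : Rep σ v inqR (nq (qOf σ) (tp σ v))⁻¹ := by
  have := (nq_pos (qOf σ) (tp σ v)).ne'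
  refine ⟨one_pos, ?_⟩
  simp [inqR, Ex.val, Ex.expr, E.sem, h.sem_n, h.sem_r, h.sem_w]
  field_simp

lemma rep_zp (n : ℤ) : Rep σ v (zpR n) (om σ v ^ n) := by
  rw [zpR]
  rcases Int.eq_nat_or_neg n with ⟨m, rfl | rfl⟩
  · simpa using h.rep_om.pow m
  · rcases Nat.eq_zero_or_pos m with rfl | hm
    · simpa using h.rep_om.pow 0
    · rw [if_neg (by omega)]
      simpa [inv_pow] using h.rep_iom.pow m

lemma rep_yj (j : ℤ) : Rep σ v (yR j) (Tan.yl (1 - σ ^ 2) (tp σ v ^ 2) ^ j) :=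
  (h.rep_zp (2 * j)).congr (by rw [← h.om_sq, ← zpow_natCast (om σ v) 2, ← zpow_mul]; norm_num)

lemma rep_x : Rep σ v xR (tp σ v ^ 2) := h.rep_t.pow 2

lemma rep_w : Rep σ v wR (1 - tp σ v ^ 2) := ((Rep.int 1).sub h.rep_x).congr (by simp)

lemma rep_half : Rep σ v hR (1 / 2) := (Rep.ofQ 1 two_pos).congr (by norm_num)

lemma rep_co (c : Co) : Rep σ v (coR c) (c.val σ) := by
  have := (pow_pos h.hσ.1 c.s).ne'
  have := (pow_pos (sub_pos.2 h.hσ.2) c.m).ne'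
  refine ⟨Nat.succ_pos _, ?_⟩
  simp [coR, Co.val, Ex.val, Ex.expr, E.sem, sem_horner, env_zero]
  field_simp

lemma rep_ep : Rep σ v epR (1 + (1 - σ ^ 2) * tp σ v ^ 2) :=
  ((Rep.int 1).add (h.rep_e.mul h.rep_x)).congr (by simp)

lemma rep_l1 : Rep σ v l1R (Tan.lc1 (1 - σ ^ 2) (tp σ v ^ 2)) :=
  ((((Rep.int 2).mul h.rep_e).mul h.rep_x).sub ((Rep.int 1).add h.rep_e)).congr
    (by simp only [Tan.lc1]; push_cast; ring)

lemma rep_cn : Rep σ v cnR (contactNum (1 - σ ^ 2) (tp σ v ^ 2)) :=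
  (((Rep.int 5).add ((((Rep.int 5).mul h.rep_e).sub (Rep.int 11)).mul h.rep_x)).add
    (h.rep_e.mul (h.rep_x.pow 2))).congr (by simp only [contactNum]; push_cast; ring)

lemma rep_cn1 : Rep σ v cn1R (Tan.cn1 (1 - σ ^ 2) (tp σ v ^ 2)) :=
  ((((Rep.int 5).mul h.rep_e).sub (Rep.int 11)).add
    (((Rep.int 2).mul h.rep_e).mul h.rep_x)).congr (by simp only [Tan.cn1]; push_cast; ring)

end Param

/-- Coefficients that represent. -/
inductive CReps (σ v : ℝ) : List (RE × ℤ) → List (ℝ × ℤ) → Prop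
  | nil : CReps σ v [] []
  | cons {a x n p q} : Rep σ v a x → CReps σ v p q → CReps σ v ((a, n) :: p) ((x, n) :: q)

namespace CReps

variable {σ v : ℝ} {p : List (RE × ℤ)} {q : List (ℝ × ℤ)}

lemma of_comb (h : Param σ v) : ∀ L : List (Co × ℤ), CReps σ v (combR L) (comb L σ)
  | [] => .nil
  | a :: L => .cons (h.rep_co a.1) (of_comb h L)

lemma der' (h : Param σ v) (hc : CReps σ v p q) : CReps σ v (derR p) (der (1 - σ ^ 2) q) := by
  induction hc with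
  | nil => exact .nil
  | @cons a x n p q ha _ ih =>
    exact .cons ((((Rep.ofQ (-n) two_pos).mul h.rep_e).mul ha).congr (by push_cast; ring)) ih

lemma mul_pow_eq (h : Param σ v) (a : ℝ) (n j : ℤ) :
    a * om σ v ^ (n + 2 * j) = Tan.yl (1 - σ ^ 2) (tp σ v ^ 2) ^ j * (a * om σ v ^ n) := by
  rw [zpow_add₀ h.om_pos.ne', zpow_mul, zpow_ofNat, h.om_sq]
  ring

lemma val' (h : Param σ v) (j : ℤ) : ∀ {p q}, CReps σ v p q →
    Rep σ v (valR j p) (Tan.yl (1 - σ ^ 2) (tp σ v ^ 2) ^ j *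
      val q √(Tan.yl (1 - σ ^ 2) (tp σ v ^ 2)))
  | _, _, .nil => (Rep.int 0).congr (by simp [val])
  | _, _, .cons ha .nil => (ha.mul (h.rep_zp _)).congr (by simp [val, h.sqrt_yl, mul_pow_eq h])
  | _, _, .cons ha (.cons hb hp) =>
    ((ha.mul (h.rep_zp _)).add (val' h j (.cons hb hp))).congr
      (by simp [val, h.sqrt_yl, mul_pow_eq h, mul_add])

lemma val1 : ∀ {p q}, CReps σ v p q → Rep σ v (val1R p) (val q 1)
  | _, _, .nil => (Rep.int 0).congr (by simp [val])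
  | _, _, .cons ha .nil => ha.congr (by simp [val])
  | _, _, .cons ha (.cons hb hp) => (ha.add (val1 (.cons hb hp))).congr (by simp [val])

end CReps

namespace Param

variable {σ v : ℝ} (h : Param σ v) (K : Spec)
include h

lemma rep_b : Rep σ v (bR K) (K.gen σ).b := h.rep_co _

lemma reps_C : CReps σ v (cL K) (K.lstC σ) :=
  .cons ((((((Rep.ofQ 26 (by norm_num)).mul (h.rep_co K.b)).add
    (((Rep.ofQ 2 (by norm_num)).mul (h.rep_co K.b)).mul h.rep_e)).neg).sub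
      (CReps.of_comb h K.C).val1).congr (by simp only [Spec.fix]; push_cast; ring))
    (CReps.of_comb h K.C)

lemma reps_F : CReps σ v (fL K) (K.lstF σ) := CReps.of_comb h K.F

variable (j : ℤ)

lemma rep_c0 : Rep σ v (c0R K j)
    (Tan.yl (1 - σ ^ 2) (tp σ v ^ 2) ^ j * (K.gen σ).C (tp σ v ^ 2)) :=
  (h.reps_C K).val' h j

lemma rep_f0 : Rep σ v (f0R K j)
    (Tan.yl (1 - σ ^ 2) (tp σ v ^ 2) ^ j * (K.gen σ).F (tp σ v ^ 2)) :=
  (h.reps_F K).val' h j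

lemma rep_c1 : Rep σ v (c1R K j)
    (Tan.yl (1 - σ ^ 2) (tp σ v ^ 2) ^ j * (K.gen σ).C1 (tp σ v ^ 2)) :=
  ((h.reps_C K).der' h).val' h j

lemma rep_f1 : Rep σ v (f1R K j)
    (Tan.yl (1 - σ ^ 2) (tp σ v ^ 2) ^ j * (K.gen σ).F1 (tp σ v ^ 2)) :=
  ((h.reps_F K).der' h).val' h j

lemma rep_c2 : Rep σ v (c2R K j)
    (Tan.yl (1 - σ ^ 2) (tp σ v ^ 2) ^ j * (K.gen σ).C2 (tp σ v ^ 2)) :=
  (((h.reps_C K).der' h).der' h).val' h j

lemma rep_f2 : Rep σ v (f2R K j)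
    (Tan.yl (1 - σ ^ 2) (tp σ v ^ 2) ^ j * (K.gen σ).F2 (tp σ v ^ 2)) :=
  (((h.reps_F K).der' h).der' h).val' h j

lemma rep_c3 : Rep σ v (c3R K j)
    (Tan.yl (1 - σ ^ 2) (tp σ v ^ 2) ^ j * (K.gen σ).C3 (tp σ v ^ 2)) :=
  ((((h.reps_C K).der' h).der' h).der' h).val' h j

lemma rep_f3 : Rep σ v (f3R K j)
    (Tan.yl (1 - σ ^ 2) (tp σ v ^ 2) ^ j * (K.gen σ).F3 (tp σ v ^ 2)) :=
  ((((h.reps_F K).der' h).der' h).der' h).val' h j

lemma rep_c4 : Rep σ v (c4R K j)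
    (Tan.yl (1 - σ ^ 2) (tp σ v ^ 2) ^ j * (K.four h.hσ).C4 (tp σ v ^ 2)) :=
  (((((h.reps_C K).der' h).der' h).der' h).der' h).val' h j

lemma rep_f4 : Rep σ v (f4R K j)
    (Tan.yl (1 - σ ^ 2) (tp σ v ^ 2) ^ j * (K.four h.hσ).F4 (tp σ v ^ 2)) :=
  (((((h.reps_F K).der' h).der' h).der' h).der' h).val' h j

lemma rep_fa0 : Rep σ v (fa0R K j)
    (Tan.yl (1 - σ ^ 2) (tp σ v ^ 2) ^ j * Tan.fa (K.gen σ) (tp σ v ^ 2)) :=
  ((((Rep.ofQ (-2) (n := 3) (by norm_num)).mul (h.rep_b K)).mul (h.rep_yj j)).add (h.rep_x.mul (h.rep_c0 K j))).congr (by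
    simp only [Tan.fa, zpow_add₀ h.y_ne, zpow_sub₀ h.y_ne, zpow_ofNat, pow_one, zpow_one]
    push_cast
    ring)

lemma rep_fa1 : Rep σ v (fa1R K j)
    (Tan.yl (1 - σ ^ 2) (tp σ v ^ 2) ^ j * Tan.fa1 (K.gen σ) (tp σ v ^ 2)) :=
  ((h.rep_c0 K j).add (h.rep_x.mul (h.rep_c1 K j))).congr (by
    simp only [Tan.fa1, zpow_add₀ h.y_ne, zpow_sub₀ h.y_ne, zpow_ofNat, pow_one, zpow_one]
    push_cast
    ring)

lemma rep_fa2 : Rep σ v (fa2R K j)
    (Tan.yl (1 - σ ^ 2) (tp σ v ^ 2) ^ j * Tan.fa2 (K.gen σ) (tp σ v ^ 2)) :=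
  (((Rep.int 2).mul (h.rep_c1 K j)).add (h.rep_x.mul (h.rep_c2 K j))).congr (by
    simp only [Tan.fa2, zpow_add₀ h.y_ne, zpow_sub₀ h.y_ne, zpow_ofNat, pow_one, zpow_one]
    push_cast
    ring)

lemma rep_fa3 : Rep σ v (fa3R K j)
    (Tan.yl (1 - σ ^ 2) (tp σ v ^ 2) ^ j * Tan.fa3 (K.gen σ) (tp σ v ^ 2)) :=
  (((Rep.int 3).mul (h.rep_c2 K j)).add (h.rep_x.mul (h.rep_c3 K j))).congr (by
    simp only [Tan.fa3, zpow_add₀ h.y_ne, zpow_sub₀ h.y_ne, zpow_ofNat, pow_one, zpow_one]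
    push_cast
    ring)

lemma rep_fa4 : Rep σ v (fa4R K j)
    (Tan.yl (1 - σ ^ 2) (tp σ v ^ 2) ^ j * Tan.fa4 (K.four h.hσ) (tp σ v ^ 2)) :=
  (((Rep.int 4).mul (h.rep_c3 K j)).add (h.rep_x.mul (h.rep_c4 K j))).congr (by
    simp only [Tan.fa4, zpow_add₀ h.y_ne, zpow_sub₀ h.y_ne, zpow_ofNat, pow_one, zpow_one]
    push_cast
    ring)

lemma rep_rt0 : Rep σ v (rt0R K j)
    (Tan.yl (1 - σ ^ 2) (tp σ v ^ 2) ^ j * Tan.rt (1 - σ ^ 2) (K.gen σ) (tp σ v ^ 2)) :=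
  (((((Rep.int 9).mul (h.rep_fa0 K j)).sub ((Rep.int 3).mul (h.rep_c0 K j))).sub (((Rep.int 2).mul h.rep_w).mul (h.rep_fa1 K j))).sub ((((Rep.int 2).mul (h.rep_b K)).mul h.rep_e).mul (h.rep_yj (j - 1)))).congr (by
    simp only [Tan.rt, zpow_add₀ h.y_ne, zpow_sub₀ h.y_ne, zpow_ofNat, pow_one, zpow_one]
    push_cast
    ring)

lemma rep_rt1 : Rep σ v (rt1R K j)
    (Tan.yl (1 - σ ^ 2) (tp σ v ^ 2) ^ j * Tan.rt1 (1 - σ ^ 2) (K.gen σ) (tp σ v ^ 2)) :=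
  (((((Rep.int 11).mul (h.rep_fa1 K j)).sub ((Rep.int 3).mul (h.rep_c1 K j))).sub (((Rep.int 2).mul h.rep_w).mul (h.rep_fa2 K j))).sub ((((Rep.int 2).mul (h.rep_b K)).mul (h.rep_e.pow 2)).mul (h.rep_yj (j - 2)))).congr (by
    simp only [Tan.rt1, zpow_add₀ h.y_ne, zpow_sub₀ h.y_ne, zpow_ofNat, pow_one, zpow_one]
    push_cast
    ring)

lemma rep_rt2 : Rep σ v (rt2R K j)
    (Tan.yl (1 - σ ^ 2) (tp σ v ^ 2) ^ j * Tan.rt2 (1 - σ ^ 2) (K.gen σ) (tp σ v ^ 2)) :=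
  (((((Rep.int 13).mul (h.rep_fa2 K j)).sub ((Rep.int 3).mul (h.rep_c2 K j))).sub (((Rep.int 2).mul h.rep_w).mul (h.rep_fa3 K j))).sub ((((Rep.int 4).mul (h.rep_b K)).mul (h.rep_e.pow 3)).mul (h.rep_yj (j - 3)))).congr (by
    simp only [Tan.rt2, zpow_add₀ h.y_ne, zpow_sub₀ h.y_ne, zpow_ofNat, pow_one, zpow_one]
    push_cast
    ring)

lemma rep_rt3 : Rep σ v (rt3R K j)
    (Tan.yl (1 - σ ^ 2) (tp σ v ^ 2) ^ j * Tan.rt3 (1 - σ ^ 2) (K.four h.hσ) (tp σ v ^ 2)) :=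
  (((((Rep.int 15).mul (h.rep_fa3 K j)).sub ((Rep.int 3).mul (h.rep_c3 K j))).sub (((Rep.int 2).mul h.rep_w).mul (h.rep_fa4 K j))).sub ((((Rep.int 12).mul (h.rep_b K)).mul (h.rep_e.pow 4)).mul (h.rep_yj (j - 4)))).congr (by
    simp only [Tan.rt3, zpow_add₀ h.y_ne, zpow_sub₀ h.y_ne, zpow_ofNat, pow_one, zpow_one]
    push_cast
    ring)

lemma rep_ro0 : Rep σ v (ro0R K j)
    (Tan.yl (1 - σ ^ 2) (tp σ v ^ 2) ^ j * Tan.ro (K.gen σ) (tp σ v ^ 2)) :=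
  (((((Rep.int 12).mul h.rep_x).sub (Rep.int 6)).mul (h.rep_f0 K j)).sub ((((Rep.int 2).mul h.rep_x).mul h.rep_w).mul (h.rep_f1 K j))).congr (by
    simp only [Tan.ro, zpow_add₀ h.y_ne, zpow_sub₀ h.y_ne, zpow_ofNat, pow_one, zpow_one]
    push_cast
    ring)

lemma rep_ro1 : Rep σ v (ro1R K j)
    (Tan.yl (1 - σ ^ 2) (tp σ v ^ 2) ^ j * Tan.ro1 (K.gen σ) (tp σ v ^ 2)) :=
  ((((Rep.int 12).mul (h.rep_f0 K j)).add ((((Rep.int 16).mul h.rep_x).sub (Rep.int 8)).mul (h.rep_f1 K j))).sub ((((Rep.int 2).mul h.rep_x).mul h.rep_w).mul (h.rep_f2 K j))).congr (by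
    simp only [Tan.ro1, zpow_add₀ h.y_ne, zpow_sub₀ h.y_ne, zpow_ofNat, pow_one, zpow_one]
    push_cast
    ring)

lemma rep_ro2 : Rep σ v (ro2R K j)
    (Tan.yl (1 - σ ^ 2) (tp σ v ^ 2) ^ j * Tan.ro2 (K.gen σ) (tp σ v ^ 2)) :=
  ((((Rep.int 28).mul (h.rep_f1 K j)).add ((((Rep.int 20).mul h.rep_x).sub (Rep.int 10)).mul (h.rep_f2 K j))).sub ((((Rep.int 2).mul h.rep_x).mul h.rep_w).mul (h.rep_f3 K j))).congr (by
    simp only [Tan.ro2, zpow_add₀ h.y_ne, zpow_sub₀ h.y_ne, zpow_ofNat, pow_one, zpow_one]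
    push_cast
    ring)

lemma rep_ro3 : Rep σ v (ro3R K j)
    (Tan.yl (1 - σ ^ 2) (tp σ v ^ 2) ^ j * Tan.ro3 (K.four h.hσ) (tp σ v ^ 2)) :=
  ((((Rep.int 48).mul (h.rep_f2 K j)).add ((((Rep.int 24).mul h.rep_x).sub (Rep.int 12)).mul (h.rep_f3 K j))).sub ((((Rep.int 2).mul h.rep_x).mul h.rep_w).mul (h.rep_f4 K j))).congr (by
    simp only [Tan.ro3, zpow_add₀ h.y_ne, zpow_sub₀ h.y_ne, zpow_ofNat, pow_one, zpow_one]
    push_cast
    ring)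

lemma rep_wa0 : Rep σ v (wa0R K j)
    (Tan.yl (1 - σ ^ 2) (tp σ v ^ 2) ^ j * Tan.wa (1 - σ ^ 2) (K.gen σ) (tp σ v ^ 2)) :=
  (((Rep.ofQ 1 (n := 12) (by norm_num)).mul (h.rep_rt0 K (j + 6)))).congr (by
    simp only [Tan.wa, zpow_add₀ h.y_ne, zpow_sub₀ h.y_ne, zpow_ofNat, pow_one, zpow_one]
    push_cast
    ring)

lemma rep_wa1 : Rep σ v (wa1R K j)
    (Tan.yl (1 - σ ^ 2) (tp σ v ^ 2) ^ j * Tan.wa1 (1 - σ ^ 2) (K.gen σ) (tp σ v ^ 2)) :=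
  (((Rep.ofQ 1 (n := 12) (by norm_num)).mul ((h.rep_rt1 K (j + 6)).add (((Rep.int (-6)).mul h.rep_e).mul (h.rep_rt0 K (j + 5)))))).congr (by
    simp only [Tan.wa1, zpow_add₀ h.y_ne, zpow_sub₀ h.y_ne, zpow_ofNat, pow_one, zpow_one]
    push_cast
    ring)

lemma rep_wa2 : Rep σ v (wa2R K j)
    (Tan.yl (1 - σ ^ 2) (tp σ v ^ 2) ^ j * Tan.wa2 (1 - σ ^ 2) (K.gen σ) (tp σ v ^ 2)) :=
  (((Rep.ofQ 1 (n := 12) (by norm_num)).mul (((h.rep_rt2 K (j + 6)).add (((Rep.int (-12)).mul h.rep_e).mul (h.rep_rt1 K (j + 5)))).add (((Rep.int (30)).mul (h.rep_e.pow 2)).mul (h.rep_rt0 K (j + 4)))))).congr (by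
    simp only [Tan.wa2, zpow_add₀ h.y_ne, zpow_sub₀ h.y_ne, zpow_ofNat, pow_one, zpow_one]
    push_cast
    ring)

lemma rep_wa3 : Rep σ v (wa3R K j)
    (Tan.yl (1 - σ ^ 2) (tp σ v ^ 2) ^ j * Tan.wa3 (1 - σ ^ 2) (K.four h.hσ) (tp σ v ^ 2)) :=
  (((Rep.ofQ 1 (n := 12) (by norm_num)).mul ((((h.rep_rt3 K (j + 6)).add (((Rep.int (-18)).mul h.rep_e).mul (h.rep_rt2 K (j + 5)))).add (((Rep.int (90)).mul (h.rep_e.pow 2)).mul (h.rep_rt1 K (j + 4)))).add (((Rep.int (-120)).mul (h.rep_e.pow 3)).mul (h.rep_rt0 K (j + 3)))))).congr (by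
    simp only [Tan.wa3, zpow_add₀ h.y_ne, zpow_sub₀ h.y_ne, zpow_ofNat, pow_one, zpow_one]
    push_cast
    ring)

lemma rep_wo0 : Rep σ v (wo0R K j)
    (Tan.yl (1 - σ ^ 2) (tp σ v ^ 2) ^ j * Tan.wo (1 - σ ^ 2) (K.gen σ) (tp σ v ^ 2)) :=
  ((h.rep_ep.mul (h.rep_yj (j - 1))).add ((Rep.ofQ 1 (n := 12) (by norm_num)).mul (h.rep_ro0 K (j + 6)))).congr (by
    simp only [Tan.wo, zpow_add₀ h.y_ne, zpow_sub₀ h.y_ne, zpow_ofNat, pow_one, zpow_one]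
    push_cast
    ring)

lemma rep_wo1 : Rep σ v (wo1R K j)
    (Tan.yl (1 - σ ^ 2) (tp σ v ^ 2) ^ j * Tan.wo1 (1 - σ ^ 2) (K.gen σ) (tp σ v ^ 2)) :=
  ((((Rep.int 2).mul h.rep_e).mul (h.rep_yj (j - 2))).add ((Rep.ofQ 1 (n := 12) (by norm_num)).mul ((h.rep_ro1 K (j + 6)).add (((Rep.int (-6)).mul h.rep_e).mul (h.rep_ro0 K (j + 5)))))).congr (by
    simp only [Tan.wo1, zpow_add₀ h.y_ne, zpow_sub₀ h.y_ne, zpow_ofNat, pow_one, zpow_one]
    push_cast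
    ring)

lemma rep_wo2 : Rep σ v (wo2R K j)
    (Tan.yl (1 - σ ^ 2) (tp σ v ^ 2) ^ j * Tan.wo2 (1 - σ ^ 2) (K.gen σ) (tp σ v ^ 2)) :=
  ((((Rep.int 4).mul (h.rep_e.pow 2)).mul (h.rep_yj (j - 3))).add ((Rep.ofQ 1 (n := 12) (by norm_num)).mul (((h.rep_ro2 K (j + 6)).add (((Rep.int (-12)).mul h.rep_e).mul (h.rep_ro1 K (j + 5)))).add (((Rep.int (30)).mul (h.rep_e.pow 2)).mul (h.rep_ro0 K (j + 4)))))).congr (by
    simp only [Tan.wo2, zpow_add₀ h.y_ne, zpow_sub₀ h.y_ne, zpow_ofNat, pow_one, zpow_one]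
    push_cast
    ring)

lemma rep_wo3 : Rep σ v (wo3R K j)
    (Tan.yl (1 - σ ^ 2) (tp σ v ^ 2) ^ j * Tan.wo3 (1 - σ ^ 2) (K.four h.hσ) (tp σ v ^ 2)) :=
  ((((Rep.int 12).mul (h.rep_e.pow 3)).mul (h.rep_yj (j - 4))).add ((Rep.ofQ 1 (n := 12) (by norm_num)).mul ((((h.rep_ro3 K (j + 6)).add (((Rep.int (-18)).mul h.rep_e).mul (h.rep_ro2 K (j + 5)))).add (((Rep.int (90)).mul (h.rep_e.pow 2)).mul (h.rep_ro1 K (j + 4)))).add (((Rep.int (-120)).mul (h.rep_e.pow 3)).mul (h.rep_ro0 K (j + 3)))))).congr (by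
    simp only [Tan.wo3, zpow_add₀ h.y_ne, zpow_sub₀ h.y_ne, zpow_ofNat, pow_one, zpow_one]
    push_cast
    ring)

lemma rep_pa : Rep σ v (paR K j)
    (Tan.yl (1 - σ ^ 2) (tp σ v ^ 2) ^ j * Tan.pa (1 - σ ^ 2) (K.gen σ) (tp σ v ^ 2)) :=
  ((((h.rep_fa0 K (j + 5)).add (((Rep.int 2).mul h.rep_x).mul (h.rep_wa1 K j))).sub ((Rep.int 2).mul (h.rep_wa0 K j))).add (((Rep.int 5).mul h.rep_ep).mul (h.rep_wa0 K (j - 1)))).congr (by
    simp only [Tan.pa, zpow_add₀ h.y_ne, zpow_sub₀ h.y_ne, zpow_ofNat, pow_one, zpow_one]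
    push_cast
    ring)

lemma rep_pa1 : Rep σ v (pa1R K j)
    (Tan.yl (1 - σ ^ 2) (tp σ v ^ 2) ^ j * Tan.pa1 (1 - σ ^ 2) (K.gen σ) (tp σ v ^ 2)) :=
  (((((h.rep_fa1 K (j + 5)).sub (((Rep.int 5).mul h.rep_e).mul (h.rep_fa0 K (j + 4)))).add (((Rep.int 2).mul h.rep_x).mul (h.rep_wa2 K j))).add (((Rep.int 5).mul h.rep_ep).mul (h.rep_wa1 K (j - 1)))).add (((Rep.int 10).mul h.rep_e).mul (h.rep_wa0 K (j - 2)))).congr (by
    simp only [Tan.pa1, zpow_add₀ h.y_ne, zpow_sub₀ h.y_ne, zpow_ofNat, pow_one, zpow_one]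
    push_cast
    ring)

lemma rep_po : Rep σ v (poR K j)
    (Tan.yl (1 - σ ^ 2) (tp σ v ^ 2) ^ j * Tan.po (1 - σ ^ 2) (K.gen σ) (tp σ v ^ 2)) :=
  (((h.rep_x.mul ((h.rep_f0 K (j + 5)).add ((Rep.int 2).mul (h.rep_wo1 K j)))).add (((Rep.int 5).mul h.rep_ep).mul (h.rep_wo0 K (j - 1)))).sub (h.rep_wo0 K j)).congr (by
    simp only [Tan.po, zpow_add₀ h.y_ne, zpow_sub₀ h.y_ne, zpow_ofNat, pow_one, zpow_one]
    push_cast
    ring)

lemma rep_po1 : Rep σ v (po1R K j)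
    (Tan.yl (1 - σ ^ 2) (tp σ v ^ 2) ^ j * Tan.po1 (1 - σ ^ 2) (K.gen σ) (tp σ v ^ 2)) :=
  ((((((h.rep_f0 K (j + 5)).add ((Rep.int 2).mul (h.rep_wo1 K j))).add (h.rep_x.mul (((h.rep_f1 K (j + 5)).sub (((Rep.int 5).mul h.rep_e).mul (h.rep_f0 K (j + 4)))).add ((Rep.int 2).mul (h.rep_wo2 K j))))).add (((Rep.int 5).mul h.rep_ep).mul (h.rep_wo1 K (j - 1)))).sub (h.rep_wo1 K j)).add (((Rep.int 10).mul h.rep_e).mul (h.rep_wo0 K (j - 2)))).congr (by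
    simp only [Tan.po1, zpow_add₀ h.y_ne, zpow_sub₀ h.y_ne, zpow_ofNat, pow_one, zpow_one]
    push_cast
    ring)

lemma rep_ma : Rep σ v (maR K j)
    (Tan.yl (1 - σ ^ 2) (tp σ v ^ 2) ^ j * Tan.ma (1 - σ ^ 2) (K.gen σ) (tp σ v ^ 2)) :=
  (h.rep_half.mul ((h.rep_w.mul ((((Rep.int 2).mul h.rep_x).mul (h.rep_wa1 K (j + 1))).sub ((Rep.int 2).mul (h.rep_wa0 K (j + 1))))).add (h.rep_cn.mul (h.rep_wa0 K j)))).congr (by
    simp only [Tan.ma, contactNum, zpow_add₀ h.y_ne, zpow_sub₀ h.y_ne, zpow_ofNat, pow_one, zpow_one]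
    push_cast
    ring)

lemma rep_mo : Rep σ v (moR K j)
    (Tan.yl (1 - σ ^ 2) (tp σ v ^ 2) ^ j * Tan.mo (1 - σ ^ 2) (K.gen σ) (tp σ v ^ 2)) :=
  ((h.rep_x.mul (h.rep_yj j)).add (h.rep_half.mul ((h.rep_w.mul ((((Rep.int 2).mul h.rep_x).mul (h.rep_wo1 K (j + 1))).sub (h.rep_wo0 K (j + 1)))).add (h.rep_cn.mul (h.rep_wo0 K j))))).congr (by
    simp only [Tan.mo, contactNum, zpow_add₀ h.y_ne, zpow_sub₀ h.y_ne, zpow_ofNat, pow_one, zpow_one]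
    push_cast
    ring)

lemma rep_ma1 : Rep σ v (ma1R K j)
    (Tan.yl (1 - σ ^ 2) (tp σ v ^ 2) ^ j * Tan.ma1 (1 - σ ^ 2) (K.gen σ) (tp σ v ^ 2)) :=
  (h.rep_half.mul ((((h.rep_l1.mul ((((Rep.int 2).mul h.rep_x).mul (h.rep_wa1 K j)).sub ((Rep.int 2).mul (h.rep_wa0 K j)))).add (h.rep_w.mul (((Rep.int 2).mul h.rep_x).mul (h.rep_wa2 K (j + 1))))).add (h.rep_cn1.mul (h.rep_wa0 K j))).add (h.rep_cn.mul (h.rep_wa1 K j)))).congr (by
    simp only [Tan.ma1, Tan.lc, Tan.lc1, Tan.cn1, contactNum, zpow_add₀ h.y_ne, zpow_sub₀ h.y_ne, zpow_ofNat, pow_one, zpow_one]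
    push_cast
    ring)

lemma rep_mo1 : Rep σ v (mo1R K j)
    (Tan.yl (1 - σ ^ 2) (tp σ v ^ 2) ^ j * Tan.mo1 (1 - σ ^ 2) (K.gen σ) (tp σ v ^ 2)) :=
  ((h.rep_yj j).add (h.rep_half.mul ((((h.rep_l1.mul ((((Rep.int 2).mul h.rep_x).mul (h.rep_wo1 K j)).sub (h.rep_wo0 K j))).add (h.rep_w.mul ((h.rep_wo1 K (j + 1)).add (((Rep.int 2).mul h.rep_x).mul (h.rep_wo2 K (j + 1)))))).add (h.rep_cn1.mul (h.rep_wo0 K j))).add (h.rep_cn.mul (h.rep_wo1 K j))))).congr (by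
    simp only [Tan.mo1, Tan.lc, Tan.lc1, Tan.cn1, contactNum, zpow_add₀ h.y_ne, zpow_sub₀ h.y_ne, zpow_ofNat, pow_one, zpow_one]
    push_cast
    ring)

lemma rep_ma2 : Rep σ v (ma2R K j)
    (Tan.yl (1 - σ ^ 2) (tp σ v ^ 2) ^ j * Tan.ma2 (1 - σ ^ 2) (K.four h.hσ) (tp σ v ^ 2)) :=
  (h.rep_half.mul (((((((Rep.int 2).mul h.rep_e).mul ((((Rep.int 2).mul h.rep_x).mul (h.rep_wa1 K j)).sub ((Rep.int 2).mul (h.rep_wa0 K j)))).add (((Rep.int 2).mul h.rep_l1).mul (((Rep.int 2).mul h.rep_x).mul (h.rep_wa2 K j)))).add (h.rep_w.mul (((Rep.int 2).mul (h.rep_wa2 K (j + 1))).add (((Rep.int 2).mul h.rep_x).mul (h.rep_wa3 K (j + 1)))))).add (((Rep.int 2).mul h.rep_e).mul (h.rep_wa0 K j))).add ((((Rep.int 2).mul h.rep_cn1).mul (h.rep_wa1 K j)).add (h.rep_cn.mul (h.rep_wa2 K j))))).congr (by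
    simp only [Tan.ma2, Tan.lc, Tan.lc1, Tan.cn1, contactNum, zpow_add₀ h.y_ne, zpow_sub₀ h.y_ne, zpow_ofNat, pow_one, zpow_one]
    push_cast
    ring)

lemma rep_mo2 : Rep σ v (mo2R K j)
    (Tan.yl (1 - σ ^ 2) (tp σ v ^ 2) ^ j * Tan.mo2 (1 - σ ^ 2) (K.four h.hσ) (tp σ v ^ 2)) :=
  (h.rep_half.mul (((((((Rep.int 2).mul h.rep_e).mul ((((Rep.int 2).mul h.rep_x).mul (h.rep_wo1 K j)).sub (h.rep_wo0 K j))).add (((Rep.int 2).mul h.rep_l1).mul ((h.rep_wo1 K j).add (((Rep.int 2).mul h.rep_x).mul (h.rep_wo2 K j))))).add (h.rep_w.mul (((Rep.int 3).mul (h.rep_wo2 K (j + 1))).add (((Rep.int 2).mul h.rep_x).mul (h.rep_wo3 K (j + 1)))))).add (((Rep.int 2).mul h.rep_e).mul (h.rep_wo0 K j))).add ((((Rep.int 2).mul h.rep_cn1).mul (h.rep_wo1 K j)).add (h.rep_cn.mul (h.rep_wo2 K j))))).congr (by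
    simp only [Tan.mo2, Tan.lc, Tan.lc1, Tan.cn1, contactNum, zpow_add₀ h.y_ne, zpow_sub₀ h.y_ne, zpow_ofNat, pow_one, zpow_one]
    push_cast
    ring)

lemma rep_ao : Rep σ v (aoR K) (Tan.ao (1 - σ ^ 2) (K.gen σ) (tp σ v ^ 2)) :=
  (((Rep.int 2).mul ((h.rep_mo K (-6)).add (h.rep_x.mul (h.rep_mo1 K (-6))))).add
    ((((Rep.int 12).mul h.rep_e).mul h.rep_x).mul (h.rep_mo K (-7)))).congr (by
    simp only [Tan.ao, zpow_neg, zpow_ofNat, div_eq_mul_inv]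
    push_cast
    ring)

lemma rep_ao1 : Rep σ v (ao1R K) (Tan.ao1 (1 - σ ^ 2) (K.four h.hσ) (tp σ v ^ 2)) :=
  ((((Rep.int 2).mul (((Rep.int 2).mul (h.rep_mo1 K (-6))).add
    (h.rep_x.mul (h.rep_mo2 K (-6))))).add (((Rep.int 24).mul h.rep_e).mul
      ((h.rep_mo K (-7)).add (h.rep_x.mul (h.rep_mo1 K (-7)))))).add
        ((((Rep.int 84).mul (h.rep_e.pow 2)).mul h.rep_x).mul (h.rep_mo K (-8)))).congr (by
    simp only [Tan.ao1, zpow_neg, zpow_ofNat, div_eq_mul_inv]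
    push_cast
    ring)

lemma rep_ae1 : Rep σ v (ae1R K) (Tan.ae1 (1 - σ ^ 2) (K.four h.hσ) (tp σ v ^ 2)) :=
  (((((((Rep.int 3).mul (h.rep_ma1 K (-6))).add
    (((Rep.int 2).mul h.rep_x).mul (h.rep_ma2 K (-6)))).add (((Rep.int 6).mul h.rep_e).mul
      ((h.rep_ma K (-7)).add (((Rep.int 2).mul h.rep_x).mul (h.rep_ma1 K (-7)))))).add
    (((Rep.int 12).mul h.rep_e).mul
      ((h.rep_ma K (-7)).add (h.rep_x.mul (h.rep_ma1 K (-7)))))).add
        ((((Rep.int 84).mul (h.rep_e.pow 2)).mul h.rep_x).mul (h.rep_ma K (-8)))).sub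
          (((h.rep_b K).mul h.rep_e).mul (h.rep_yj (-2)))).congr (by
    simp only [Tan.ae1, zpow_neg, zpow_ofNat, div_eq_mul_inv]
    push_cast
    ring)

lemma rep_V : Rep σ v (vR K) ((Tan.wtOf (1 - σ ^ 2) (K.gen σ)).V (tp σ v)) :=
  (((h.rep_wa0 K 0).mul (h.rep_it.pow 2)).add ((h.rep_wo0 K 0).mul h.rep_it)).congr (by
    simp only [Tan.wtOf, zpow_zero, one_mul, div_eq_mul_inv, inv_pow])

lemma rep_V1 : Rep σ v (v1R K) ((Tan.wtOf (1 - σ ^ 2) (K.gen σ)).V1 (tp σ v)) :=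
  ((((((Rep.int 2).mul (h.rep_wa1 K 0)).mul h.rep_it).sub
    (((Rep.int 2).mul (h.rep_wa0 K 0)).mul (h.rep_it.pow 3))).add
      ((Rep.int 2).mul (h.rep_wo1 K 0))).sub ((h.rep_wo0 K 0).mul (h.rep_it.pow 2))).congr (by
    simp only [Tan.wtOf, zpow_zero, one_mul, div_eq_mul_inv, inv_pow]
    push_cast
    ring)

lemma rep_G : Rep σ v (gsR K) (ptC K σ v).G :=
  (((h.rep_pa K 0).mul (h.rep_it.pow 3)).add ((h.rep_po K 0).mul (h.rep_it.pow 2))).congr (by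
    simp only [ptC, ptIn, Tan.wtOf, zpow_zero, one_mul, div_eq_mul_inv, inv_pow])

lemma rep_P1 : Rep σ v (gs1R K) ((Tan.wtOf (1 - σ ^ 2) (K.gen σ)).P1 (tp σ v)) :=
  ((((((Rep.int 2).mul (h.rep_pa1 K 0)).mul (h.rep_it.pow 2)).sub
    (((Rep.int 3).mul (h.rep_pa K 0)).mul (h.rep_it.pow 4))).add
      (((Rep.int 2).mul (h.rep_po1 K 0)).mul h.rep_it)).sub
        (((Rep.int 2).mul (h.rep_po K 0)).mul (h.rep_it.pow 3))).congr (by
    simp only [Tan.wtOf, zpow_zero, one_mul, div_eq_mul_inv, inv_pow]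
    push_cast
    ring)

lemma yf_eq : yf (1 - σ ^ 2) (tp σ v) = Tan.yl (1 - σ ^ 2) (tp σ v ^ 2) ^ (1 : ℤ) := by
  rw [zpow_one]
  rfl

lemma rep_U : Rep σ v (uR K) (ptC K σ v).U :=
  ((h.rep_V K).sub (h.rep_t.mul (h.rep_G K))).congr rfl

lemma rep_U1 : Rep σ v (u1R K) (ptC K σ v).U' :=
  ((h.rep_half.mul (h.rep_yj 1)).mul (((h.rep_V1 K).sub (h.rep_G K)).sub
    (h.rep_t.mul (h.rep_P1 K)))).congr
    (by simp only [ptC, ptIn, h.yf_eq]; ring)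

lemma rep_G1 : Rep σ v (g1R K) (ptC K σ v).G' :=
  ((h.rep_half.mul (h.rep_yj 1)).mul (h.rep_P1 K)).congr
    (by simp only [ptC, ptIn, h.yf_eq]; ring)

lemma rep_p : Rep σ v pR (ptC K σ v).p :=
  ((h.rep_half.mul h.rep_it).mul h.rep_ep).congr
    (by simp only [ptC, ptIn, div_eq_mul_inv, mul_inv]; ring)

lemma rep_g : Rep σ v gR (ptC K σ v).g :=
  ((h.rep_half.mul h.rep_it).mul (h.rep_yj 1)).congr
    (by simp only [ptC, ptIn, h.yf_eq, div_eq_mul_inv, mul_inv]; ring)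

end Param

end Vale.Agent.P219.CH.Relax.Seven.Cand
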