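import Vale.Agent.P219.Relax.Poly.FastCheck
import Vale.Agent.P219.Relax.Poly.Chart

/-!
# P219, dimension seven: nonnegativity on the square by a tree of charts

A tree cuts either coordinate, reflects it, or blows up the corner at the origin; at each leaf all
coefficients in the Bernstein basis are nonnegative.
-/

noncomputable section

open Set

namespace Vale.Agent.P219.CH.Relax.Seven.Cand

open Vale.Agent.P219.Poly (E)

/-- A certificate of nonnegativity on the square. -/
inductive Tree where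
  /-- All coefficients are nonnegative. -/
  | leaf
  /-- The first coordinate is cut at `a / (a + b)`. -/
  | cut0 (a b : ℕ) (l r : Tree)
  /-- The second coordinate is cut at `a / (a + b)`. -/
  | cut1 (a b : ℕ) (l r : Tree)
  /-- The first coordinate is reflected. -/
  | flip0 (t : Tree)
  /-- The second coordinate is reflected. -/
  | flip1 (t : Tree)
  /-- The corner at the origin is blown up. -/
  | blow (lo hi : Tree)
  deriving Inhabited

/-- The chart of `[0, a / m]` in the first coordinate. -/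
def lo0 (a m : ℕ) : E.Map := ⟨.mul (.k a) (.x 0), .x 1, m, 1⟩
/-- The chart of `[a / (a + b), 1]` in the first coordinate. -/
def hi0 (a b : ℕ) : E.Map :=
  ⟨.add (.k a) (.mul (.k b) (.x 0)), .x 1, (a + b : ℕ), 1⟩
/-- The chart of `[0, a / m]` in the second coordinate. -/
def lo1 (a m : ℕ) : E.Map := ⟨.x 0, .mul (.k a) (.x 1), 1, m⟩
/-- The chart of `[a / (a + b), 1]` in the second coordinate. -/
def hi1 (a b : ℕ) : E.Map :=
  ⟨.x 0, .add (.k a) (.mul (.k b) (.x 1)), 1, (a + b : ℕ)⟩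
/-- The reflection of the first coordinate. -/
def ref0 : E.Map := ⟨.bar 0, .x 1, 1, 1⟩
/-- The reflection of the second coordinate. -/
def ref1 : E.Map := ⟨.x 0, .bar 1, 1, 1⟩
/-- The half of the blow-up below the diagonal. -/
def bLo : E.Map := ⟨.x 0, .mul (.x 0) (.x 1), 1, 1⟩
/-- The half of the blow-up above the diagonal. -/
def bHi : E.Map := ⟨.mul (.x 0) (.x 1), .x 1, 1, 1⟩

/-- The tree certifies the expression. -/
def okT : Tree → E → Bool
  | .leaf, p => E.check2 p
  | .cut0 a b l r, p =>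
    decide (0 < a ∧ 0 < b) && okT l ((lo0 a (a + b)).app p) && okT r ((hi0 a b).app p)
  | .cut1 a b l r, p =>
    decide (0 < a ∧ 0 < b) && okT l ((lo1 a (a + b)).app p) && okT r ((hi1 a b).app p)
  | .flip0 t, p => okT t (ref0.app p)
  | .flip1 t, p => okT t (ref1.app p)
  | .blow l r, p => okT l (bLo.app p) && okT r (bHi.app p)

lemma Map.nonneg' {c : E.Map} {p : E}
    (h : ∀ r ∈ Icc (0 : ℝ) 1, ∀ a ∈ Icc (0 : ℝ) 1, 0 ≤ E.sem ![r, a, 0] (c.app p))
    (h₀ : 0 < c.m₀) (h₁ : 0 < c.m₁) {r a s v : ℝ}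
    (hr : r ∈ Icc (0 : ℝ) 1) (ha : a ∈ Icc (0 : ℝ) 1)
    (hs : E.sem ![r, a, 0] c.A₀ = c.m₀ * s) (hv : E.sem ![r, a, 0] c.A₁ = c.m₁ * v) :
    0 ≤ E.sem ![s, v, 0] p := by
  have h0 := h r hr a ha
  have hu : ∀ i, E.sem ![r, a, 0] (![c.A₀, c.A₁, .k 0] i) =
      ((![c.m₀, c.m₁, 1] : Fin 3 → ℤ) i : ℝ) * ![s, v, 0] i := fun i => by
    fin_cases i
    · simpa using hs
    · simpa using hv
    · simp [E.sem]
  rw [E.Map.app, E.sem_subst,
    show (fun i => ((![c.m₀, c.m₁, 1] : Fin 3 → ℤ) i : ℝ) -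
        E.sem ![r, a, 0] (![c.A₀, c.A₁, .k 0] i)) =
      fun i => ((![c.m₀, c.m₁, 1] : Fin 3 → ℤ) i : ℝ) * (1 - ![s, v, 0] i) from
    funext fun i => by rw [hu i]; ring,
    show (fun i => E.sem ![r, a, 0] (![c.A₀, c.A₁, .k 0] i)) =
      fun i => ((![c.m₀, c.m₁, 1] : Fin 3 → ℤ) i : ℝ) * ![s, v, 0] i from funext hu,
    E.hom_smul (fun i => ((![c.m₀, c.m₁, 1] : Fin 3 → ℤ) i : ℝ)) ![s, v, 0]
      (fun i => 1 - ![s, v, 0] i) p, ← E.sem_eq_hom] at h0
  have hp : ∀ i n, (0 : ℝ) < ((![c.m₀, c.m₁, 1] : Fin 3 → ℤ) i : ℝ) ^ n := fun i n =>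
    pow_pos (by fin_cases i <;> simp [h₀, h₁]) n
  exact nonneg_of_mul_nonneg_right h0 (mul_pos (mul_pos (hp 0 _) (hp 1 _)) (hp 2 _))

/-- A certified expression is nonnegative on the square. -/
theorem okT_sound : ∀ (T : Tree) (p : E), okT T p = true → ∀ s ∈ Icc (0 : ℝ) 1,
    ∀ v ∈ Icc (0 : ℝ) 1, 0 ≤ E.sem ![s, v, 0] p
  | .leaf, p, h, s, hs, v, hv => by
    simp only [okT] at h
    exact E.sem_nonneg2 h fun i => by fin_cases i <;> simp [hs.1, hs.2, hv.1, hv.2]
  | .cut0 a b l r, p, h, s, hs, v, hv => by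
    simp only [okT, Bool.and_eq_true, decide_eq_true_eq] at h
    obtain ⟨⟨⟨ha, hb⟩, hl⟩, hr⟩ := h
    have hA : (0 : ℝ) < a := by exact_mod_cast ha
    have hB : (0 : ℝ) < b := by exact_mod_cast hb
    have := mul_le_mul_of_nonneg_right hs.2 (add_nonneg hA.le hB.le)
    rcases le_total (s * (a + b)) a with h1 | h1
    · refine Map.nonneg' (okT_sound l _ hl) (r := s * (a + b) / a) (a := v) (by simp [lo0]; omega)
        (by simp [lo0]) ⟨div_nonneg (mul_nonneg hs.1 (by linarith)) hA.le,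
          (div_le_one hA).2 h1⟩ hv ?_ (by simp [lo0, E.sem])
      simp [lo0, E.sem]
      field_simp
    · refine Map.nonneg' (okT_sound r _ hr) (r := (s * (a + b) - a) / b) (a := v)
        (by simp [hi0]; omega) (by simp [hi0]) ⟨div_nonneg (sub_nonneg.2 h1) hB.le,
          (div_le_one hB).2 (by linarith)⟩ hv ?_ (by simp [hi0, E.sem])
      simp [hi0, E.sem]
      field_simp
      ring
  | .cut1 a b l r, p, h, s, hs, v, hv => by
    simp only [okT, Bool.and_eq_true, decide_eq_true_eq] at h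
    obtain ⟨⟨⟨ha, hb⟩, hl⟩, hr⟩ := h
    have hA : (0 : ℝ) < a := by exact_mod_cast ha
    have hB : (0 : ℝ) < b := by exact_mod_cast hb
    have := mul_le_mul_of_nonneg_right hv.2 (add_nonneg hA.le hB.le)
    rcases le_total (v * (a + b)) a with h1 | h1
    · refine Map.nonneg' (okT_sound l _ hl) (r := s) (a := v * (a + b) / a) (by simp [lo1])
        (by simp [lo1]; omega) hs ⟨div_nonneg (mul_nonneg hv.1 (by linarith)) hA.le,
          (div_le_one hA).2 h1⟩ (by simp [lo1, E.sem]) ?_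
      simp [lo1, E.sem]
      field_simp
    · refine Map.nonneg' (okT_sound r _ hr) (r := s) (a := (v * (a + b) - a) / b)
        (by simp [hi1]) (by simp [hi1]; omega) hs ⟨div_nonneg (sub_nonneg.2 h1) hB.le,
          (div_le_one hB).2 (by linarith)⟩ (by simp [hi1, E.sem]) ?_
      simp [hi1, E.sem]
      field_simp
      ring
  | .flip0 t, p, h, s, hs, v, hv => by
    simp only [okT] at h
    refine Map.nonneg' (okT_sound t _ h) (r := 1 - s) (a := v) (by simp [ref0]) (by simp [ref0])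
      ⟨by linarith [hs.2], by linarith [hs.1]⟩ hv ?_ (by simp [ref0, E.sem])
    simp [ref0, E.sem]
  | .flip1 t, p, h, s, hs, v, hv => by
    simp only [okT] at h
    refine Map.nonneg' (okT_sound t _ h) (r := s) (a := 1 - v) (by simp [ref1]) (by simp [ref1])
      hs ⟨by linarith [hv.2], by linarith [hv.1]⟩ (by simp [ref1, E.sem]) ?_
    simp [ref1, E.sem]
  | .blow l r, p, h, s, hs, v, hv => by
    simp only [okT, Bool.and_eq_true] at h
    obtain ⟨hl, hr⟩ := h
    rcases le_total v s with h1 | h1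
    · rcases hs.1.eq_or_lt with h0 | h0
      · obtain rfl : s = 0 := h0.symm
        obtain rfl : v = 0 := le_antisymm h1 hv.1
        exact Map.nonneg' (okT_sound l _ hl) (r := 0) (a := 0) (by simp [bLo]) (by simp [bLo])
          (by simp) (by simp) (by simp [bLo, E.sem]) (by simp [bLo, E.sem])
      · exact Map.nonneg' (okT_sound l _ hl) (r := s) (a := v / s) (by simp [bLo]) (by simp [bLo])
          hs ⟨div_nonneg hv.1 h0.le, (div_le_one h0).2 h1⟩ (by simp [bLo, E.sem])
          (by simp [bLo, E.sem, mul_div_cancel₀ v h0.ne'])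
    · rcases hv.1.eq_or_lt with h0 | h0
      · obtain rfl : v = 0 := h0.symm
        obtain rfl : s = 0 := le_antisymm h1 hs.1
        exact Map.nonneg' (okT_sound r _ hr) (r := 0) (a := 0) (by simp [bHi]) (by simp [bHi])
          (by simp) (by simp) (by simp [bHi, E.sem]) (by simp [bHi, E.sem])
      · exact Map.nonneg' (okT_sound r _ hr) (r := s / v) (a := v) (by simp [bHi]) (by simp [bHi])
          ⟨div_nonneg hs.1 h0.le, (div_le_one h0).2 h1⟩ hv
          (by simp [bHi, E.sem, div_mul_cancel₀ s h0.ne']) (by simp [bHi, E.sem])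

/-- A piece `[a / m, b / m]` of the first parameter. -/
structure Win where
  /-- The numerator of the start. -/
  a : ℕ
  /-- The numerator of the end. -/
  b : ℕ
  /-- The denominator. -/
  m : ℕ

/-- The chart of a piece. -/
def Win.map (W : Win) : E.Map :=
  ⟨.add (.k W.a) (.mul (.k ((W.b : ℤ) - W.a)) (.x 0)), .x 1, W.m, 1⟩

/-- A piece is proper. -/
def Win.ok (W : Win) : Bool := decide (W.a < W.b ∧ 0 < W.m)

/-- The check on a piece. -/
def okW (W : Win) (T : Tree) (p : E) : Bool := W.ok && okT T (W.map.app p)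

/-- A piece as an interval. -/
def Win.set (W : Win) : Set ℝ := Icc ((W.a : ℝ) / W.m) ((W.b : ℝ) / W.m)

theorem okW_sound {W : Win} {T : Tree} {p : E} (h : okW W T p = true) {σ : ℝ} (hσ : σ ∈ W.set)
    {v : ℝ} (hv : v ∈ Icc (0 : ℝ) 1) : 0 ≤ E.sem ![σ, v, 0] p := by
  simp only [okW, Win.ok, Bool.and_eq_true, decide_eq_true_eq] at h
  obtain ⟨⟨hab, hm⟩, h⟩ := h
  have hM : (0 : ℝ) < W.m := by exact_mod_cast hm
  have hD : (0 : ℝ) < (W.b : ℝ) - W.a := sub_pos.2 (by exact_mod_cast hab)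
  have h1 := (div_le_iff₀ hM).1 hσ.1
  have h2 := (le_div_iff₀ hM).1 hσ.2
  refine Map.nonneg' (okT_sound T _ h) (r := (σ * W.m - W.a) / ((W.b : ℝ) - W.a)) (a := v)
    (by simpa [Win.map] using hm) (by simp [Win.map])
    ⟨div_nonneg (by linarith) hD.le, (div_le_one hD).2 (by linarith)⟩ hv ?_
    (by simp [Win.map, E.sem])
  simp [Win.map, E.sem]
  field_simp
  ring

end Vale.Agent.P219.CH.Relax.Seven.Cand
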