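import Vale.Agent.P219.Relax.Seven.Cand.Atom
import Vale.Agent.P219.Relax.Seven.Cand.Tree

/-!
# P219, dimension seven: polynomials over the quantities of a candidate

An expression in the quantities at a contact and one variable gives a list of fractions; if each
Bernstein coefficient on each cell is certified on a piece of `σ`, it is nonnegative there.
-/

noncomputable section

open Set

namespace Vale.Agent.P219.CH.Relax.Seven.Cand

open Vale.Agent.P219.Poly (E)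
open _root_.Vale.Agent.P219.CH.Relax.Six (zc Red.pv Red.ad Red.sc Red.mu Red.Bern Red.pv_ad
  Red.pv_sc Red.pv_mu Red.length_ad Red.length_sc Red.bco)
open _root_.Vale.Agent.P219.CH.Relax.Six.RootGen (tp)

/-- Expressions in the quantities and one variable. -/
inductive X where
  /-- A quantity. -/
  | at_ (i : ℕ)
  /-- The variable. -/
  | var
  /-- A rational number `z / (k + 1)`. -/
  | num (z : ℤ) (k : ℕ)
  /-- A sum. -/
  | add (p q : X)
  /-- A negative. -/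
  | neg (p : X)
  /-- A product. -/
  | mul (p q : X)
  deriving Inhabited

instance : Add X := ⟨X.add⟩
instance : Neg X := ⟨X.neg⟩
instance : Sub X := ⟨fun p q => X.add p (X.neg q)⟩
instance : Mul X := ⟨X.mul⟩
instance (n : ℕ) : OfNat X n := ⟨X.num n 0⟩

/-- The quantities as fractions. -/
def atR (K : Spec) : ℕ → RE
  | 0 => uR K
  | 1 => u1R K
  | 2 => gsR K
  | 3 => g1R K
  | 4 => pR
  | 5 => gR
  | 6 => tR
  | 7 => itR
  | 8 => qR
  | 9 => izR
  | 10 => inqR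
  | 11 => aoR K
  | 12 => ao1R K
  | 13 => ae1R K
  | 14 => bR K
  | 15 => .ofE (.pow (.x 0) 2)
  | 16 => ⟨.k 1, ⟨0, 0, 0, 0, 0, 1, 0, 0⟩, 1⟩
  | 17 => yR (-6)
  | _ => iR 0

/-- The quantities. -/
def atV (K : Spec) {σ v : ℝ} (h : Param σ v) : ℕ → ℝ
  | 0 => (ptC K σ v).U
  | 1 => (ptC K σ v).U'
  | 2 => (ptC K σ v).G
  | 3 => (ptC K σ v).G'
  | 4 => (ptC K σ v).p
  | 5 => (ptC K σ v).g
  | 6 => tp σ v
  | 7 => (tp σ v)⁻¹
  | 8 => qOf σ
  | 9 => (zc (qOf σ) (tp σ v))⁻¹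
  | 10 => (nq (qOf σ) (tp σ v))⁻¹
  | 11 => Tan.ao (1 - σ ^ 2) (K.gen σ) (tp σ v ^ 2)
  | 12 => Tan.ao1 (1 - σ ^ 2) (K.four h.hσ) (tp σ v ^ 2)
  | 13 => Tan.ae1 (1 - σ ^ 2) (K.four h.hσ) (tp σ v ^ 2)
  | 14 => (K.gen σ).b
  | 15 => σ ^ 2
  | 16 => (2 - σ ^ 2)⁻¹
  | 17 => Tan.yl (1 - σ ^ 2) (tp σ v ^ 2) ^ (-6 : ℤ)
  | _ => 0

lemma rep_at (K : Spec) {σ v : ℝ} (h : Param σ v) : ∀ i, Rep σ v (atR K i) (atV K h i)
  | 0 => h.rep_U K
  | 1 => h.rep_U1 K
  | 2 => h.rep_G K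
  | 3 => h.rep_G1 K
  | 4 => h.rep_p K
  | 5 => h.rep_g K
  | 6 => h.rep_t
  | 7 => h.rep_it
  | 8 => h.rep_q
  | 9 => h.rep_iz
  | 10 => h.rep_inq
  | 11 => h.rep_ao K
  | 12 => h.rep_ao1 K
  | 13 => h.rep_ae1 K
  | 14 => h.rep_b K
  | 15 => (Rep.ofE _).congr (by simp [atV, E.sem, env_zero])
  | 16 => by
    have := h.r_pos.ne'
    refine ⟨one_pos, ?_⟩
    simp [atR, atV, Ex.val, Ex.expr, E.sem, h.sem_r]
    field_simp
  | 17 => h.rep_yj (-6)
  | _ + 18 => (Rep.int 0).congr (by simp [atV])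

/-- The value. -/
def X.ev (A : ℕ → ℝ) (x : ℝ) : X → ℝ
  | .at_ i => A i
  | .var => x
  | .num z k => z / (k + 1 : ℕ)
  | .add p q => X.ev A x p + X.ev A x q
  | .neg p => -X.ev A x p
  | .mul p q => X.ev A x p * X.ev A x q

variable (A : ℕ → ℝ) (x : ℝ) (p q : X)

@[simp] lemma X.ev_at (i : ℕ) : (X.at_ i).ev A x = A i := rfl
@[simp] lemma X.ev_var : X.var.ev A x = x := rfl
@[simp] lemma X.ev_num (z : ℤ) (k : ℕ) : (X.num z k).ev A x = (z : ℝ) / (k + 1 : ℕ) := rfl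
@[simp] lemma X.ev_add : (p + q).ev A x = p.ev A x + q.ev A x := rfl
@[simp] lemma X.ev_neg : (-p).ev A x = -p.ev A x := rfl
@[simp] lemma X.ev_sub : (p - q).ev A x = p.ev A x - q.ev A x := (sub_eq_add_neg _ _).symm
@[simp] lemma X.ev_mul : (p * q).ev A x = p.ev A x * q.ev A x := rfl
@[simp] lemma X.ev_lit (n : ℕ) : (no_index (OfNat.ofNat n : X)).ev A x = (n : ℝ) := by
  show ((n : ℤ) : ℝ) / ((0 + 1 : ℕ) : ℝ) = _
  simp

/-- The coefficients in the variable. -/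
def X.list (A : ℕ → RE) : X → List RE
  | .at_ i => [A i]
  | .var => [iR 0, iR 1]
  | .num z k => [RE.ofQ z (k + 1)]
  | .add p q => RE.ad (X.list A p) (X.list A q)
  | .neg p => RE.sc (iR (-1)) (X.list A p)
  | .mul p q => RE.mu (X.list A p) (X.list A q)

lemma Reps.length_eq {σ v : ℝ} {p : List RE} {P : List ℝ} (h : Reps σ v p P) :
    p.length = P.length := by
  induction h with
  | nil => rfl
  | cons _ _ ih => simp [ih]

lemma X.exists_list {σ v : ℝ} {A : ℕ → RE} {V : ℕ → ℝ} (hA : ∀ i, Rep σ v (A i) (V i)) :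
    ∀ p : X, ∃ P, Reps σ v (p.list A) P ∧ ∀ x, Red.pv P x = p.ev V x
  | .at_ i => ⟨[V i], .cons (hA i) .nil, fun x => by simp [Red.pv, X.ev]⟩
  | .var => ⟨[0, 1], .cons ((Rep.int 0).congr (by simp)) (.cons ((Rep.int 1).congr (by simp)) .nil),
      fun x => by simp [Red.pv, X.ev]⟩
  | .num z k => ⟨[(z : ℝ) / (k + 1 : ℕ)], .cons (Rep.ofQ z k.succ_pos) .nil,
      fun x => by simp [Red.pv, X.ev]⟩
  | .add p q => by
    obtain ⟨P, hP, eP⟩ := exists_list hA p
    obtain ⟨Q, hQ, eQ⟩ := exists_list hA q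
    exact ⟨_, hP.ad hQ, fun x => by simp [Red.pv_ad, eP, eQ, X.ev]⟩
  | .neg p => by
    obtain ⟨P, hP, eP⟩ := exists_list hA p
    exact ⟨_, Reps.sc ((Rep.int (-1)).congr (show ((-1 : ℤ) : ℝ) = -1 by simp)) hP,
      fun x => by simp [Red.pv_sc, eP, X.ev]⟩
  | .mul p q => by
    obtain ⟨P, hP, eP⟩ := exists_list hA p
    obtain ⟨Q, hQ, eQ⟩ := exists_list hA q
    exact ⟨_, hP.mu hQ, fun x => by simp [Red.pv_mu, eP, eQ, X.ev]⟩

/-- The variable substituted. -/
def X.sub1 (s : X) : X → X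
  | .var => s
  | .add p q => .add (X.sub1 s p) (X.sub1 s q)
  | .neg p => .neg (X.sub1 s p)
  | .mul p q => .mul (X.sub1 s p) (X.sub1 s q)
  | p => p

lemma X.ev_sub1 (A : ℕ → ℝ) (x : ℝ) (s : X) :
    ∀ p : X, (X.sub1 s p).ev A x = p.ev A (s.ev A x)
  | .at_ _ => rfl
  | .var => rfl
  | .num _ _ => rfl
  | .add p q => by simp [X.sub1, X.ev, ev_sub1 A x s p, ev_sub1 A x s q]
  | .neg p => by simp [X.sub1, X.ev, ev_sub1 A x s p]
  | .mul p q => by simp [X.sub1, X.ev, ev_sub1 A x s p, ev_sub1 A x s q]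

/-- The expression on the cell `i` of `n + 1` equal ones. -/
def X.cell (p : X) (n i : ℕ) : X := X.sub1 (.add (.num i n) (.mul (.num 1 n) .var)) p

/-- The certificate of one row: the number of cells less one, and a tree for each coefficient. -/
structure RowCert where
  /-- One less than the number of cells. -/
  n : ℕ := 0
  /-- The trees, by cell and coefficient. -/
  tree : ℕ → ℕ → Tree := fun _ _ => .leaf

/-- All coefficients of one cell pass. -/
def cellOk (W : Win) (l : List RE) (T : ℕ → Tree) : Bool :=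
  (List.range l.length).all fun j =>
    okW W (T j) (RE.bco (l.length - 1) (iR 1) l j).num

/-- A row passes on a piece. -/
def rowOk (W : Win) (A : ℕ → RE) (p : X) (c : RowCert) : Bool :=
  (List.range (c.n + 1)).all fun i => cellOk W ((p.cell c.n i).list A) (c.tree i)

/-- A certified row is nonnegative for the variable in the unit interval. -/
theorem rowOk_sound {W : Win} {A : ℕ → RE} {V : ℕ → ℝ} {p : X} {c : RowCert}
    (h : rowOk W A p c = true) {σ v : ℝ} (hp : Param σ v) (hσ : σ ∈ W.set)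
    (hA : ∀ i, Rep σ v (A i) (V i)) {x : ℝ} (hx : x ∈ Icc (0 : ℝ) 1) : 0 ≤ p.ev V x := by
  have hn : (0 : ℝ) < (c.n + 1 : ℕ) := by exact_mod_cast Nat.succ_pos _
  obtain ⟨i, hi, hlo, hhi⟩ : ∃ i, i < c.n + 1 ∧ (i : ℝ) ≤ x * (c.n + 1 : ℕ) ∧
      x * (c.n + 1 : ℕ) ≤ i + 1 := by
    have h0 : 0 ≤ x * (c.n + 1 : ℕ) := mul_nonneg hx.1 hn.le
    rcases lt_or_ge ⌊x * (c.n + 1 : ℕ)⌋₊ (c.n + 1) with h1 | h1
    · exact ⟨_, h1, Nat.floor_le h0, (Nat.lt_floor_add_one _).le⟩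
    · refine ⟨c.n, Nat.lt_succ_self _, ?_, ?_⟩
      · have := (Nat.le_floor_iff h0).1 h1
        push_cast at this ⊢
        linarith
      · push_cast
        exact mul_le_of_le_one_left (by positivity) hx.2
  have hc := List.all_eq_true.1 h i (List.mem_range.2 hi)
  obtain ⟨P, hP, eP⟩ := X.exists_list hA (p.cell c.n i)
  have hb : Red.Bern (P.length - 1) 1 P := by
    intro j hj
    rw [← hP.length_eq] at hj ⊢
    rcases Nat.eq_zero_or_pos ((p.cell c.n i).list A).length with h0 | h0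
    · have : P = [] := List.eq_nil_of_length_eq_zero (hP.length_eq ▸ h0)
      subst this
      simp [Red.bco]
    · have hj' := List.all_eq_true.1 hc j (List.mem_range.2 (by omega))
      exact (Reps.bco ((Rep.int 1).congr (by simp)) hP hj).nonneg (hp.val_pos _)
        (okW_sound hj' hσ ⟨hp.hv.1.le, hp.hv.2⟩)
  obtain ⟨y, hy⟩ : ∃ y, y = x * (c.n + 1 : ℕ) - i := ⟨_, rfl⟩
  have h1 := hb.pv_nonneg (by omega) zero_le_one (x := y) ⟨by linarith, by linarith⟩
  rw [eP, X.cell, X.ev_sub1] at h1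
  convert h1 using 2
  simp only [X.ev]
  rw [hy]
  push_cast
  field_simp
  ring

/-- A quantity free of the variable, strictly positive: a multiple dominates a bump. -/
def posOk (W : Win) (A : ℕ → RE) (p : X) (N i j k : ℕ) (T : Tree) : Bool :=
  (p.list A).length == 1 && okW W T
    (.add (.mul (.k (2 ^ N)) ((p.list A).getD 0 (iR 0)).num)
      (.neg (.mul (.mul (.pow (.x 0) i) (.pow (.bar 0) j)) (.pow (.x 1) k))))

/-- A certified quantity is positive. -/
theorem posOk_sound {W : Win} {A : ℕ → RE} {V : ℕ → ℝ} {p : X} {N i j k : ℕ} {T : Tree}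
    (h : posOk W A p N i j k T = true) {σ v : ℝ} (hp : Param σ v) (hσ : σ ∈ W.set)
    (hA : ∀ i, Rep σ v (A i) (V i)) : 0 < p.ev V 0 := by
  simp only [posOk, Bool.and_eq_true, beq_iff_eq] at h
  obtain ⟨hl, h⟩ := h
  obtain ⟨P, hP, eP⟩ := X.exists_list hA p
  obtain ⟨z, rfl⟩ := List.length_eq_one_iff.1 (hP.length_eq ▸ hl)
  have hr := hP.getD 0
  rw [← eP]
  simp only [Red.pv, zero_mul, add_zero, List.getD_cons_zero] at hr ⊢
  refine hr.pos (hp.val_pos _) ?_
  have h0 := okW_sound h hσ ⟨hp.hv.1.le, hp.hv.2⟩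
  have hb : 0 < σ ^ i * (1 - σ) ^ j * v ^ k := by
    have := hp.hσ.1
    have := sub_pos.2 hp.hσ.2
    have := hp.hv.1
    positivity
  simp only [E.sem, Matrix.cons_val_zero, Matrix.cons_val_one, iR] at h0
  refine pos_of_mul_pos_right (a := (2 : ℝ) ^ N) ?_ (by positivity)
  push_cast at h0
  simp only [iR, env] at *
  linarith

/-- A quantity free of the variable at the end `v = 1`. -/
def endOk (W : Win) (A : ℕ → RE) (p : X) (T : Tree) : Bool :=
  (p.list A).length == 1 && okW W T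
    ((⟨.x 0, .k 1, 1, 1⟩ : E.Map).app ((p.list A).getD 0 (iR 0)).num)

lemma sem_end (σ v : ℝ) (p : E) :
    E.sem ![σ, v, 0] ((⟨.x 0, .k 1, 1, 1⟩ : E.Map).app p) = E.sem ![σ, 1, 0] p := by
  rw [E.Map.app, E.sem_subst, E.sem_eq_hom]
  congr 1 <;> (funext i; fin_cases i <;> simp [E.sem])

/-- A certified quantity is nonnegative at the end. -/
theorem endOk_sound {W : Win} {A : ℕ → RE} {V : ℕ → ℝ} {p : X} {T : Tree}
    (h : endOk W A p T = true) {σ : ℝ} (hp : Param σ 1) (hσ : σ ∈ W.set)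
    (hA : ∀ i, Rep σ 1 (A i) (V i)) : 0 ≤ p.ev V 0 := by
  simp only [endOk, Bool.and_eq_true, beq_iff_eq] at h
  obtain ⟨hl, h⟩ := h
  obtain ⟨P, hP, eP⟩ := X.exists_list hA p
  obtain ⟨z, rfl⟩ := List.length_eq_one_iff.1 (hP.length_eq ▸ hl)
  have hr := hP.getD 0
  rw [← eP]
  simp only [Red.pv, zero_mul, add_zero, List.getD_cons_zero] at hr ⊢
  refine hr.nonneg (hp.val_pos _) ?_
  have h0 := okW_sound h hσ (v := 1) ⟨zero_le_one, le_rfl⟩
  rwa [sem_end] at h0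

end Vale.Agent.P219.CH.Relax.Seven.Cand
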