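import Vale.Agent.P219.Relax.Poly.FastCheck
import Vale.Agent.P219.Relax.Six.InRed

/-!
# P219, dimension seven: reflective fractions in the parameters

A number is a polynomial numerator over a natural number times powers of eight factors, all
positive inside the parameter square: `σ`, `1 - σ`, `v`, the denominator and the numerator of the
root, `2 - σ ^ 2`, and the numerators of the two comparison factors at the contact.
-/

namespace Vale.Agent.P219.CH.Relax.Seven.Cand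

open Vale.Agent.P219.Poly (E)
open _root_.Vale.Agent.P219.CH.Relax.Six

/-- The exponents of the factors. -/
structure Ex where
  s : ℕ
  u : ℕ
  v : ℕ
  n : ℕ
  o : ℕ
  r : ℕ
  z : ℕ
  w : ℕ

/-- No factor. -/
def Ex.zero : Ex := ⟨0, 0, 0, 0, 0, 0, 0, 0⟩

/-- The larger exponents. -/
def Ex.sup (e f : Ex) : Ex :=
  ⟨max e.s f.s, max e.u f.u, max e.v f.v, max e.n f.n, max e.o f.o, max e.r f.r, max e.z f.z,
    max e.w f.w⟩

/-- The product. -/
def Ex.add (e f : Ex) : Ex :=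
  ⟨e.s + f.s, e.u + f.u, e.v + f.v, e.n + f.n, e.o + f.o, e.r + f.r, e.z + f.z, e.w + f.w⟩

/-- The quotient. -/
def Ex.sub (e f : Ex) : Ex :=
  ⟨e.s - f.s, e.u - f.u, e.v - f.v, e.n - f.n, e.o - f.o, e.r - f.r, e.z - f.z, e.w - f.w⟩

/-- `den`. -/
def nE : E := .add (.add (.k 1) (.x 0)) (.mul (.bar 0) (.pow (.x 1) 2))

/-- The numerator of `om`. -/
def oE : E := .add (.add (.k 1) (.x 0)) (.neg (.mul (.bar 0) (.pow (.x 1) 2)))

/-- `2 - σ ^ 2`. -/
def rE : E := .add (.k 2) (.neg (.pow (.x 0) 2))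

/-- `e = 1 - σ ^ 2`. -/
def eE : E := .add (.k 1) (.neg (.pow (.x 0) 2))

/-- The numerator of `1 - q t ^ 2`. -/
def zE : E := .add (.mul rE (.pow nE 2)) (.mul (.k (-8)) (.mul eE (.pow (.x 1) 2)))

/-- The numerator of the comparison factor at the contact. -/
def wE : E :=
  .add (.add (.mul (.pow rE 2) (.pow nE 4))
      (.mul (.k (-4)) (.mul (.mul eE rE) (.mul (.pow nE 2) (.pow (.x 1) 2)))))
    (.mul (.k 32) (.mul (.pow eE 2) (.pow (.x 1) 4)))

/-- The product of the factors as an expression. -/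
def Ex.expr (e : Ex) : E :=
  .mul (.mul (.mul (.pow (.x 0) e.s) (.pow (.bar 0) e.u)) (.mul (.pow (.x 1) e.v) (.pow nE e.n)))
    (.mul (.mul (.pow oE e.o) (.pow rE e.r)) (.mul (.pow zE e.z) (.pow wE e.w)))

/-- The parameters as an environment. -/
def env (σ v : ℝ) : Fin 3 → ℝ := ![σ, v, 0]

lemma env_zero (σ v : ℝ) : env σ v 0 = σ := rfl

lemma env_one (σ v : ℝ) : env σ v 1 = v := rfl

/-- The product of the factors. -/
noncomputable def Ex.val (σ v : ℝ) (e : Ex) : ℝ := E.sem (env σ v) e.expr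

lemma Ex.val_add (σ v : ℝ) (e f : Ex) : (e.add f).val σ v = e.val σ v * f.val σ v := by
  simp only [val, expr, add, E.sem, pow_add]
  ring

lemma Ex.val_zero (σ v : ℝ) : Ex.zero.val σ v = 1 := by
  simp [val, expr, zero, E.sem]

lemma Ex.val_sub {e f : Ex} (σ v : ℝ) (hs : f.s ≤ e.s) (hu : f.u ≤ e.u) (hv : f.v ≤ e.v)
    (hn : f.n ≤ e.n) (ho : f.o ≤ e.o) (hr : f.r ≤ e.r) (hz : f.z ≤ e.z) (hw : f.w ≤ e.w) :
    (e.sub f).val σ v * f.val σ v = e.val σ v := by
  rw [← Ex.val_add]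
  simp [Ex.sub, Ex.add, Nat.sub_add_cancel, *]

lemma Ex.val_sub_left (σ v : ℝ) (e f : Ex) :
    ((e.sup f).sub e).val σ v * e.val σ v = (e.sup f).val σ v :=
  val_sub σ v (le_max_left _ _) (le_max_left _ _) (le_max_left _ _) (le_max_left _ _)
    (le_max_left _ _) (le_max_left _ _) (le_max_left _ _) (le_max_left _ _)

lemma Ex.val_sub_right (σ v : ℝ) (e f : Ex) :
    ((e.sup f).sub f).val σ v * f.val σ v = (e.sup f).val σ v :=
  val_sub σ v (le_max_right _ _) (le_max_right _ _) (le_max_right _ _) (le_max_right _ _)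
    (le_max_right _ _) (le_max_right _ _) (le_max_right _ _) (le_max_right _ _)

/-- A fraction. -/
structure RE where
  num : E
  ex : Ex
  k : ℕ

namespace RE

/-- An integer over a natural number. -/
def ofQ (z : ℤ) (n : ℕ) : RE := ⟨.k z, Ex.zero, n⟩

/-- A polynomial. -/
def ofE (p : E) : RE := ⟨p, Ex.zero, 1⟩

/-- The negative. -/
def neg (a : RE) : RE := ⟨.neg a.num, a.ex, a.k⟩

/-- The numerator over larger exponents and a multiple of the constant. -/
def lift (a : RE) (d : Ex) (k : ℕ) : E :=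
  .mul (.mul (.k (k / a.k : ℕ)) (d.sub a.ex).expr) a.num

/-- The sum. -/
def add (a b : RE) : RE :=
  ⟨.add (lift a (a.ex.sup b.ex) (Nat.lcm a.k b.k)) (lift b (a.ex.sup b.ex) (Nat.lcm a.k b.k)),
    a.ex.sup b.ex, Nat.lcm a.k b.k⟩

/-- The difference. -/
def sub (a b : RE) : RE := add a (neg b)

/-- The product. -/
def mul (a b : RE) : RE := ⟨.mul a.num b.num, a.ex.add b.ex, a.k * b.k⟩

/-- A natural power. -/
def pow (a : RE) : ℕ → RE
  | 0 => ofQ 1 1
  | 1 => a
  | n + 1 => mul a (pow a n)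

/-- The sum of the first `n` values. -/
def sum (f : ℕ → RE) : ℕ → RE
  | 0 => ofQ 0 1
  | n + 1 => add (sum f n) (f n)

end RE

/-- `a` represents `x` at the parameters. -/
def Rep (σ v : ℝ) (a : RE) (x : ℝ) : Prop :=
  0 < a.k ∧ E.sem (env σ v) a.num = x * ((a.k : ℝ) * a.ex.val σ v)

namespace Rep

variable {σ v x y : ℝ} {a b : RE}

lemma congr (h : Rep σ v a x) (e : x = y) : Rep σ v a y := e ▸ h

lemma ofQ (z : ℤ) {n : ℕ} (hn : 0 < n) : Rep σ v (RE.ofQ z n) ((z : ℝ) / n) := by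
  refine ⟨hn, ?_⟩
  simp [RE.ofQ, E.sem, Ex.val_zero, hn.ne']

lemma int (z : ℤ) : Rep σ v (RE.ofQ z 1) (z : ℝ) := (ofQ z one_pos).congr (by simp)

lemma ofE (p : E) : Rep σ v (RE.ofE p) (E.sem (env σ v) p) := by
  refine ⟨one_pos, ?_⟩
  simp [RE.ofE, Ex.val_zero]

lemma neg (h : Rep σ v a x) : Rep σ v a.neg (-x) := by
  refine ⟨h.1, ?_⟩
  simp only [RE.neg, E.sem, h.2, neg_mul]

lemma lift (h : Rep σ v a x) {d : Ex} {k : ℕ} (hk : a.k ∣ k)
    (hd : (d.sub a.ex).val σ v * a.ex.val σ v = d.val σ v) :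
    E.sem (env σ v) (a.lift d k) = x * ((k : ℝ) * d.val σ v) := by
  obtain ⟨m, rfl⟩ := hk
  simp only [RE.lift, E.sem, Nat.mul_div_cancel_left _ h.1, h.2]
  rw [← hd]
  simp only [Ex.val]
  push_cast
  ring

lemma add (ha : Rep σ v a x) (hb : Rep σ v b y) : Rep σ v (a.add b) (x + y) := by
  refine ⟨Nat.pos_of_ne_zero (Nat.lcm_ne_zero ha.1.ne' hb.1.ne'), ?_⟩
  simp only [RE.add, E.sem, ha.lift (Nat.dvd_lcm_left _ _) (Ex.val_sub_left ..),
    hb.lift (Nat.dvd_lcm_right _ _) (Ex.val_sub_right ..)]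
  ring

lemma sub (ha : Rep σ v a x) (hb : Rep σ v b y) : Rep σ v (a.sub b) (x - y) :=
  (ha.add hb.neg).congr (sub_eq_add_neg x y).symm

lemma mul (ha : Rep σ v a x) (hb : Rep σ v b y) : Rep σ v (a.mul b) (x * y) := by
  refine ⟨Nat.mul_pos ha.1 hb.1, ?_⟩
  simp only [RE.mul, E.sem, ha.2, hb.2, Ex.val_add]
  push_cast
  ring

lemma pow (ha : Rep σ v a x) : ∀ n : ℕ, Rep σ v (a.pow n) (x ^ n)
  | 0 => (int 1).congr (by simp)
  | 1 => ha.congr (pow_one x).symm
  | n + 2 => (ha.mul (pow ha (n + 1))).congr (pow_succ' x (n + 1)).symm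

lemma sum {f : ℕ → RE} {g : ℕ → ℝ} : ∀ {n : ℕ}, (∀ i < n, Rep σ v (f i) (g i)) →
    Rep σ v (RE.sum f n) (∑ i ∈ Finset.range n, g i)
  | 0, _ => (int 0).congr (by simp)
  | n + 1, h => ((sum fun i hi => h i (Nat.lt_succ_of_lt hi)).add (h n n.lt_succ_self)).congr
      (Finset.sum_range_succ g n).symm

lemma nonneg (h : Rep σ v a x) (hp : 0 < a.ex.val σ v) (hn : 0 ≤ E.sem (env σ v) a.num) :
    0 ≤ x := nonneg_of_mul_nonneg_left (h.2 ▸ hn) (mul_pos (Nat.cast_pos.2 h.1) hp)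

lemma pos (h : Rep σ v a x) (hp : 0 < a.ex.val σ v) (hn : 0 < E.sem (env σ v) a.num) :
    0 < x :=
  pos_of_mul_pos_left (h.2 ▸ hn) (mul_pos (Nat.cast_pos.2 h.1) hp).le

lemma eq_zero (h : Rep σ v a x) (hp : 0 < a.ex.val σ v) (hn : E.sem (env σ v) a.num = 0) :
    x = 0 :=
  (mul_eq_zero.1 (h.2 ▸ hn)).resolve_right (mul_pos (Nat.cast_pos.2 h.1) hp).ne'

end Rep

/-! ## Lists -/

namespace RE

/-- The sum of lists. -/
def ad : List RE → List RE → List RE
  | [], q => q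
  | p, [] => p
  | a :: p, b :: q => add a b :: ad p q

/-- A multiple. -/
def sc (k : RE) : List RE → List RE
  | [] => []
  | a :: p => mul k a :: sc k p

/-- The product of lists. -/
def mu : List RE → List RE → List RE
  | [], _ => []
  | [a], q => sc a q
  | a :: b :: p, q => ad (sc a q) (ofQ 0 1 :: mu (b :: p) q)

/-- The substitution of `u + w * x`. -/
def sb (u w : RE) : List RE → List RE
  | [] => []
  | a :: p => ad [a] (mu [u, w] (sb u w p))

/-- The coefficient `j` in the Bernstein basis of degree `n` on `[0, L]`. -/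
def bco (n : ℕ) (L : RE) (p : List RE) (j : ℕ) : RE :=
  sum (fun k => mul (ofQ (j.choose k) (n.choose k)) (mul (p.getD k (ofQ 0 1)) (pow L k))) (j + 1)

end RE

/-- Two lists correspond entry by entry. -/
inductive Reps (σ v : ℝ) : List RE → List ℝ → Prop
  | nil : Reps σ v [] []
  | cons {a x p q} : Rep σ v a x → Reps σ v p q → Reps σ v (a :: p) (x :: q)

namespace Reps

variable {σ v : ℝ}

lemma ad : ∀ {p q P Q}, Reps σ v p P → Reps σ v q Q → Reps σ v (RE.ad p q) (Red.ad P Q)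
  | _, _, _, _, .nil, h => by simpa [RE.ad, Red.ad] using h
  | _, _, _, _, .cons ha hp, .nil => by simpa [RE.ad, Red.ad] using Reps.cons ha hp
  | _, _, _, _, .cons ha hp, .cons hb hq => .cons (ha.add hb) (ad hp hq)

lemma sc {k : RE} {c : ℝ} (hk : Rep σ v k c) : ∀ {p P}, Reps σ v p P →
    Reps σ v (RE.sc k p) (Red.sc c P)
  | _, _, .nil => .nil
  | _, _, .cons ha hp => .cons (hk.mul ha) (sc hk hp)

lemma mu : ∀ {p q P Q}, Reps σ v p P → Reps σ v q Q → Reps σ v (RE.mu p q) (Red.mu P Q)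
  | _, _, _, _, .nil, _ => .nil
  | _, _, _, _, .cons ha .nil, h => sc ha h
  | _, _, _, _, .cons ha (.cons hb hp), h =>
    ad (sc ha h) (.cons ((Rep.int 0).congr (by simp)) (mu (.cons hb hp) h))

lemma sb {u w : RE} {a b : ℝ} (hu : Rep σ v u a) (hw : Rep σ v w b) : ∀ {p P}, Reps σ v p P →
    Reps σ v (RE.sb u w p) (Red.sb a b P)
  | _, _, .nil => .nil
  | _, _, .cons ha hp => ad (.cons ha .nil) (mu (.cons hu (.cons hw .nil)) (sb hu hw hp))

lemma getD : ∀ {p P}, Reps σ v p P → ∀ k, Rep σ v (p.getD k (RE.ofQ 0 1)) (P.getD k 0)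
  | _, _, .nil, _ => (Rep.int 0).congr (by simp)
  | _, _, .cons ha _, 0 => by simpa using ha
  | _, _, .cons _ hp, k + 1 => by simpa using getD hp k

lemma bco {L : RE} {l : ℝ} (hL : Rep σ v L l) {p P} (h : Reps σ v p P) {n j : ℕ} (hj : j ≤ n) :
    Rep σ v (RE.bco n L p j) (Red.bco n l P j) :=
  Rep.sum fun k hk => ((Rep.ofQ _ (Nat.choose_pos (by omega))).mul
    ((h.getD k).mul (hL.pow k))).congr (by push_cast; ring)

end Reps

end Vale.Agent.P219.CH.Relax.Seven.Cand
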