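import Vale.Agent.P219.Relax.Seven.Cand.Expr
import Vale.Agent.P219.Relax.Seven.InFactsOf

/-!
# P219, dimension seven: the rows of a candidate

Each condition at a contact is one expression; the number of the row is its place in the list.
-/

noncomputable section

open Set

namespace Vale.Agent.P219.CH.Relax.Seven.Cand

open _root_.Vale.Agent.P219.CH.Relax.Five (Pt)

/-- `U`. -/
def xU : X := .at_ 0
/-- The derivative of `U`. -/
def xU1 : X := .at_ 1
/-- `G`. -/
def xG : X := .at_ 2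
/-- The derivative of `G`. -/
def xG1 : X := .at_ 3
/-- `p`. -/
def xp : X := .at_ 4
/-- `g`. -/
def xg : X := .at_ 5
/-- The contact. -/
def xt : X := .at_ 6
/-- Its inverse. -/
def xit : X := .at_ 7
/-- The constant of the concavity. -/
def xq : X := .at_ 8
/-- The inverse of the comparison factor at the contact. -/
def xinq : X := .at_ 10
/-- A half. -/
def xh : X := .num 1 1

/-- `k0`. -/
def xk0 : X := 1 + xU1 + 5 * xp * xU
/-- `k1`. -/
def xk1 : X := xG1 + 5 * xp * xG - 6 * xU + xg * xG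
/-- `k2`. -/
def xk2 : X := -xU1 + xp * xU - 6 * xG
/-- `k3`. -/
def xk3 : X := -xG1 + xp * xG - xg * xG
/-- The slope at the contact. -/
def xsl : X := -2 * xk0 * (xit * xit * xit) - xk1 * (xit * xit) + xk3
/-- The tangents at the contact on the line of sum `s`. -/
def xtan (s : X) : X :=
  2 * (xk0 + xk1 * xt + xk2 * (xt * xt) + xk3 * (xt * xt * xt)) * (xit * xit) +
    xsl * (s - 2 * xt)

/-- The constant coefficient of a bicubic with the sign `σ` at the first cosine. -/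
def zeroX (m : X) : X :=
  2 + 2 * xU1 + 10 * xp * xU + (m * (xG1 + 5 * xp * xG - 6 * xU) + xg * xG) * .var +
    (xp * xU - xU1) * (.var * .var) - xh * (xg * xG) * (.var * .var * .var)
/-- The linear coefficient of the mixed pair. -/
def mix1 : X :=
  6 * xU - xG1 - 5 * xp * xG + xg * xG + (12 * xG - 2 * (xg * xU)) * .var +
    (xG1 - xp * xG - xh * (xg * xG)) * (.var * .var)
/-- The quadratic coefficient of the mixed pair. -/
def mix2 : X := xp * xU - xU1 + (-xG1 + xp * xG - xh * (xg * xG)) * .var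
/-- The linear coefficient of the outward pair. -/
def out1 : X :=
  6 * xU - xG1 - 5 * xp * xG + xg * xG - 12 * xG * .var +
    (xG1 - xp * xG - xh * (xg * xG)) * (.var * .var)
/-- The quadratic coefficient of the outward pair. -/
def out2 : X := xp * xU - xU1 + (xG1 - xp * xG - xh * (xg * xG)) * .var
/-- The cubic coefficient. -/
def top3 : X := -(xh * (xg * xG))

/-- The Bernstein coefficient `j` in the second cosine. -/
def bic (f₀ f₁ f₂ f₃ : X) : ℕ → X
  | 0 => f₀
  | 1 => f₀ + .num 1 2 * f₁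
  | 2 => f₀ + .num 2 2 * f₁ + .num 1 2 * f₂
  | _ => f₀ + f₁ + f₂ + f₃

/-- The sum of the cosines on the line. -/
def xs : X := 1 + .var
/-- The product of the cosines at `r ^ 2 = w`. -/
def xpi (w : X) : X := xs * xs * .num 1 3 - w * ((2 - xs) * (2 - xs)) * .num 1 3
/-- The kernel on the line. -/
def xker (w : X) : X :=
  2 + (2 - xs * xs + 2 * xpi w) * xU1 + (xs - xs * xpi w) * xG1 +
    xp * (xU * (10 + xs * xs - 2 * xpi w) + xG * (5 * xs + xs * xpi w)) -
    6 * (xU * xs + 2 * xG * xpi w)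
/-- The bound of the root. -/
def xroot (μ iμ w : X) : X := (2 - xs) * .num 1 3 * (μ + (1 - w) * iμ)
/-- The gain row. -/
def gainX (μ iμ r₁ w : X) : X :=
  xker w + 2 * xpi w * (xg * (xU + xG)) +
    xg * xG * (xs * ((2 + xs) * xh) - 2 * xpi (r₁ * r₁)) * xroot μ iμ w
/-- The cosine `s / 2 + r (2 - s) / 2`. -/
def xcos (r : X) : X := xs * xh + r * (2 - xs) * xh
/-- `1 - q c ^ 2`. -/
def xzc (c : X) : X := 1 - xq * (c * c)
/-- The loss times `1 - q c ^ 2`. -/
def xloss (c : X) : X := xq * xh * (2 * xt + c + xq * (xt * xt) * c) * xinq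
/-- The pair row times the denominators of both losses. -/
def pairX (μ iμ r₁ cA cB l w : X) : X :=
  (xker w - xpi w * xtan xs + xg * xG * (xs * ((2 + xs) * xh)) * xroot μ iμ w) *
      (xzc cA * xzc cB) -
    xsl * xpi (r₁ * r₁) *
      ((xloss cA * xzc cB + xloss cB * xzc cA) *
          ((xs * xh - xt) * (xs * xh - xt) + w * ((2 - xs) * (2 - xs)) * .num 1 3) +
        (xloss cA * xzc cB - xloss cB * xzc cA) * ((xs * xh - xt) * (2 - xs) * l))
/-- The first pair row times the denominator of its loss. -/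
def firstX : X :=
  (xker (.num 9 24) - xpi (.num 9 24) * xtan xs +
      xg * xG * (xs * ((2 + xs) * xh)) * xroot 1 1 (.num 9 24)) * xzc (xcos (-(.num 3 4))) -
    xsl * xpi (.num 9 24) * (2 * xloss (xcos (-(.num 3 4)))) *
      ((xs * xh - xt) * (xs * xh - xt) + .num 9 24 * ((2 - xs) * (2 - xs)) * .num 1 3)

/-- A piece of the gain: start, end, the weight of the mean and its inverse. -/
def gPiece : ℕ → X × X × X × X
  | 0 => (0, .num 4 4, 1, 1)
  | 1 => (.num 4 4, .num 97 99, .num 7 14, .num 15 6)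
  | _ => (.num 97 99, 1, .num 1 9, 10)

/-- A piece of the pair bound after the first. -/
def pPiece : ℕ → X × X × X × X
  | 0 => (.num 3 4, .num 9 9, .num 2 2, .num 3 1)
  | 1 => (.num 9 9, .num 49 49, .num 1 2, 3)
  | _ => (.num 49 49, 1, .num 1 9, 10)

/-- The gain row at one end of a piece. -/
def gRow (P : X × X × X × X) : ℕ → X
  | 0 => gainX P.2.2.1 P.2.2.2 P.2.1 (P.1 * P.1)
  | _ => gainX P.2.2.1 P.2.2.2 P.2.1 (P.2.1 * P.2.1)

/-- The pair row at one of the three values of a piece. -/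
def pRow (P : X × X × X × X) : ℕ → X
  | 0 => pairX P.2.2.1 P.2.2.2 P.2.1 (xcos P.1) (xcos (-P.2.1)) P.1 (P.1 * P.1)
  | 1 => pairX P.2.2.1 P.2.2.2 P.2.1 (xcos P.1) (xcos (-P.2.1)) ((P.1 + P.2.1) * xh) (P.1 * P.2.1)
  | _ => pairX P.2.2.1 P.2.2.2 P.2.1 (xcos P.1) (xcos (-P.2.1)) P.2.1 (P.2.1 * P.2.1)

/-- The marginal slope of the concavity: `c t (3 + c t ^ 2)` times the slope less its derivative. -/
def concX : X :=
  xq * xt * (3 + xq * (xt * xt)) * (xt * xt * xt * (xt * xt * xt) * .at_ 17 * xsl) -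
    xzc xt * (1 - xh * xq * (xt * xt) + xh * (xq * xq) * (xt * xt * (xt * xt))) *
      (.at_ 11 + 2 * (xt * xt) * .at_ 12 + 2 * xt * .at_ 13)

/-- The nonnegative rows. -/
def rowX : ℕ → X
  | 0 => xU1 + 5 * xp * xU
  | 1 => xk0
  | 2 => -xsl
  | 3 => 6 * xU - xG1
  | 4 => zeroX 1
  | 5 => X.sub1 (xh * .var)
      (xk0 + xk1 * .var + xk2 * (.var * .var) + xk3 * (.var * .var * .var) +
        .var * .var * (xg * (xU + xG)))
  | 6 => bic (zeroX 1) mix1 mix2 top3 0
  | 7 => bic (zeroX 1) mix1 mix2 top3 1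
  | 8 => bic (zeroX 1) mix1 mix2 top3 2
  | 9 => bic (zeroX 1) mix1 mix2 top3 3
  | 10 => bic (zeroX (-1)) out1 out2 top3 0
  | 11 => bic (zeroX (-1)) out1 out2 top3 1
  | 12 => bic (zeroX (-1)) out1 out2 top3 2
  | 13 => bic (zeroX (-1)) out1 out2 top3 3
  | 14 => gRow (gPiece 0) 0
  | 15 => gRow (gPiece 0) 1
  | 16 => gRow (gPiece 1) 0
  | 17 => gRow (gPiece 1) 1
  | 18 => gRow (gPiece 2) 0
  | 19 => gRow (gPiece 2) 1
  | 20 => firstX
  | 21 => pRow (pPiece 0) 0
  | 22 => pRow (pPiece 0) 1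
  | 23 => pRow (pPiece 0) 2
  | 24 => pRow (pPiece 1) 0
  | 25 => pRow (pPiece 1) 1
  | 26 => pRow (pPiece 1) 2
  | 27 => pRow (pPiece 2) 0
  | 28 => pRow (pPiece 2) 1
  | 29 => pRow (pPiece 2) 2
  | _ => concX

/-- The strictly positive rows. -/
def posX : ℕ → X
  | 0 => xU + xG
  | 1 => -xG
  | 2 => 1 + (xU1 + 5 * xp * xU + xg * xG)
  | 3 => 1 + (6 * xp - xg) * xU + 6 * xG
  | _ => (2 + xt) * xk0 + xt * xk1

/-- The rows at the diameter. -/
def endX : ℕ → X
  | 0 => .num 107 99 - 3 * .at_ 15 * (xU + xt * xG)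
  | 1 => .num (-82) 99 + 3 * .at_ 15 * (xU + xt * xG)
  | 2 => .at_ 14
  | 3 => .num 43 99 * (.at_ 15 * .at_ 15) -
      .at_ 14 * (.at_ 15 * .at_ 15 * .at_ 15 * (.at_ 15 * .at_ 15 * .at_ 15)) * xh * .at_ 16
  | 4 => .num 19 99 + .at_ 15 * .at_ 15 * xG
  | 5 => -xG - 2 * xG1 * .at_ 16
  | _ => .num 53 99 - .at_ 15 * .at_ 15 * (-xG - 2 * xG1 * .at_ 16)

end Vale.Agent.P219.CH.Relax.Seven.Cand
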