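import Vale.Agent.P219.Relax.Seven.Cand.Rows

/-!
# P219, dimension seven: certificates from checked candidates

A candidate whose rows pass on a piece of `σ` is a solution there; pieces covering the unit
interval give both certificates.
-/

noncomputable section

open Set Real

namespace Vale.Agent.P219.CH.Relax.Seven.Cand

set_option linter.unusedSectionVars false

open _root_.Vale.Agent.P219.CH.Relax.Five (Pt yf)
open _root_.Vale.Agent.P219.CH.Relax.Six (zc zc_pos)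
open _root_.Vale.Agent.P219.CH.Relax.Six.RootGen (val tp den exists_param)

/-- All checks of a candidate on a piece. -/
structure Checked (K : Spec) (W : Win) : Prop where
  row : ∀ i ≤ 30, ∃ c : RowCert, rowOk W (atR K) (rowX i) c = true
  pos : ∀ i ≤ 4, ∃ N a b d T, posOk W (atR K) (posX i) N a b d T = true
  last : ∀ i ≤ 6, ∃ T, endOk W (atR K) (endX i) T = true

variable {K : Spec} {W : Win} {σ v : ℝ}

section Values

variable (h : Param σ v) (x : ℝ)

lemma ev_sl : xsl.ev (atV K h) x = slope (ptC K σ v) (tp σ v) := by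
  simp [xsl, xk0, xk1, xk3, xU, xU1, xG, xG1, xp, xg, xit, atV, slope, k0, k1, k3,
    div_eq_mul_inv]
  ring

lemma ev_tan (s : X) : (xtan s).ev (atV K h) x =
    tanSum (ptC K σ v) (tp σ v) (s.ev (atV K h) x) := by
  simp [xtan, ev_sl h x, xk0, xk1, xk2, xk3, xU, xU1, xG, xG1, xp, xg, xit, xt, atV, tanSum, diag,
    k0, k1, k2, k3, div_eq_mul_inv]
  ring

lemma ev_ker (w : X) : (xker w).ev (atV K h) x =
    kLine (ptC K σ v) (1 + x) (piLine (1 + x) (w.ev (atV K h) x)) := by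
  simp [xker, xpi, xs, xU, xU1, xG, xG1, xp, atV, kLine, piLine]
  ring

lemma ev_gain (μ iμ r₁ w : X) (hμ : iμ.ev (atV K h) x = (μ.ev (atV K h) x)⁻¹) :
    (gainX μ iμ r₁ w).ev (atV K h) x = gainRow (ptC K σ v) (μ.ev (atV K h) x)
      (r₁.ev (atV K h) x) (1 + x) (w.ev (atV K h) x) := by
  simp [gainX, ev_ker, xroot, xpi, xs, xh, xU, xG, xg, atV, gainRow, rootLine, piLine, hμ,
    div_eq_mul_inv]
  ring

lemma ev_loss (c : X) (hz : zc (qOf σ) (c.ev (atV K h) x) ≠ 0) :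
    (xloss c).ev (atV K h) x = hLoss (qOf σ) (tp σ v) (c.ev (atV K h) x) *
      (xzc c).ev (atV K h) x := by
  have e : (xzc c).ev (atV K h) x = zc (qOf σ) (c.ev (atV K h) x) := by
    simp [xzc, xq, atV, zc, pow_two]
  rw [e, hLoss, div_mul_eq_mul_div, mul_div_mul_right _ _ hz, div_eq_mul_inv]
  simp only [xloss, xq, xh, xt, xinq, atV, X.ev_mul, X.ev_add, X.ev_lit, X.ev_num, X.ev_at]
  push_cast
  ring

lemma ev_pair {μ iμ r₁ cA cB l w : X} (hμ : iμ.ev (atV K h) x = (μ.ev (atV K h) x)⁻¹)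
    (hA : zc (qOf σ) (cA.ev (atV K h) x) ≠ 0) (hB : zc (qOf σ) (cB.ev (atV K h) x) ≠ 0) :
    (pairX μ iμ r₁ cA cB l w).ev (atV K h) x = pairRow (ptC K σ v) (tp σ v) (μ.ev (atV K h) x)
      (r₁.ev (atV K h) x) (hLoss (qOf σ) (tp σ v) (cA.ev (atV K h) x))
      (hLoss (qOf σ) (tp σ v) (cB.ev (atV K h) x)) (1 + x) (l.ev (atV K h) x)
      (w.ev (atV K h) x) * ((xzc cA).ev (atV K h) x * (xzc cB).ev (atV K h) x) := by
  simp only [pairX, X.ev_sub, X.ev_add, X.ev_mul, X.ev_lit, ev_tan, ev_ker, ev_sl,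
    ev_loss h x cA hA, ev_loss h x cB hB]
  simp [xroot, xpi, xs, xh, xG, xg, xt, atV, pairRow, rootLine, lossLine, piLine, hμ,
    div_eq_mul_inv]
  ring

lemma ev_zc (c : X) : (xzc c).ev (atV K h) x = zc (qOf σ) (c.ev (atV K h) x) := by
  simp [xzc, xq, atV, zc, pow_two]

lemma ev_first (hB : zc (qOf σ) ((1 + x) / 2 - 3 / 5 * (2 - (1 + x)) / 2) ≠ 0) :
    firstX.ev (atV K h) x = pairRow (ptC K σ v) (tp σ v) 1 (3 / 5)
      (hDn (qOf σ) (tp σ v) (1 + x) (3 / 5)) (hDn (qOf σ) (tp σ v) (1 + x) (3 / 5)) (1 + x)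
      (3 / 5) ((3 / 5) ^ 2) * zc (qOf σ) ((1 + x) / 2 - 3 / 5 * (2 - (1 + x)) / 2) := by
  have ec : (xcos (-(.num 3 4))).ev (atV K h) x = (1 + x) / 2 - 3 / 5 * (2 - (1 + x)) / 2 := by
    simp [xcos, xs, xh]
    ring
  simp only [firstX, X.ev_sub, X.ev_add, X.ev_mul, X.ev_lit, ev_tan, ev_ker, ev_sl, ev_zc,
    ev_loss h x _ (ec ▸ hB), ec]
  simp [xroot, xpi, xs, xh, xG, xg, xt, atV, pairRow, rootLine, lossLine, piLine, hDn,
    div_eq_mul_inv]
  ring_nf

end Values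

section Facts

variable (hc : Checked K W) (h : Param σ v) (hσ : σ ∈ W.set)
include hc h hσ

lemma row_nonneg {i : ℕ} (hi : i ≤ 30) {x : ℝ} (hx : x ∈ Icc (0 : ℝ) 1) :
    0 ≤ (rowX i).ev (atV K h) x :=
  let ⟨_, h'⟩ := hc.row i hi
  rowOk_sound h' h hσ (rep_at K h) hx

lemma row0 {i : ℕ} (hi : i ≤ 30) : 0 ≤ (rowX i).ev (atV K h) 0 :=
  row_nonneg hc h hσ hi ⟨le_rfl, zero_le_one⟩

lemma pos_of {i : ℕ} (hi : i ≤ 4) : 0 < (posX i).ev (atV K h) 0 :=
  let ⟨_, _, _, _, _, h'⟩ := hc.pos i hi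
  posOk_sound h' h hσ (rep_at K h)

lemma margin : Strictly.GainMargin (ptC K σ v) := by
  have h1 := pos_of hc h hσ (i := 1) (by omega)
  have h2 := pos_of hc h hσ (i := 2) (by omega)
  have h3 := pos_of hc h hσ (i := 3) (by omega)
  have h4 := row0 hc h hσ (i := 3) (by omega)
  have ht := mul_pos two_pos h.t_pos
  have hy : 0 < yf (1 - σ ^ 2) (tp σ v) :=
    (Five.yf_pos (e_mem h.hσ) (Ioc_subset_Icc_self h.t_mem))
  have he := mul_nonneg (e_mem h.hσ).1.le (sq_nonneg (tp σ v))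
  simp [posX, rowX, xU, xU1, xG, xG1, xp, xg, atV] at h1 h2 h3 h4
  exact ⟨by linarith, div_pos hy ht, div_nonneg (by linarith) ht.le, by linarith, by linarith,
    by linarith⟩

lemma zc_mem {x r : ℝ} (hx : x ∈ Icc (0 : ℝ) 1) (hr : r ∈ Icc (-1 : ℝ) 1) :
    0 < zc (qOf σ) ((1 + x) / 2 + r * (2 - (1 + x)) / 2) := by
  refine zc_pos h.q_mem ⟨?_, ?_⟩
  · linarith [hx.1, mul_le_mul_of_nonneg_right hr.1 (sub_nonneg.2 hx.2)]
  · linarith [mul_le_mul_of_nonneg_right hr.2 (sub_nonneg.2 hx.2)]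

lemma bic_nonneg {f₀ f₁ f₂ f₃ : X} (hb : ∀ j ≤ 3, ∀ c ∈ Icc (0 : ℝ) 1,
      0 ≤ (bic f₀ f₁ f₂ f₃ j).ev (atV K h) c) {c d : ℝ} (hc' : c ∈ Icc (0 : ℝ) 1)
    (hd : d ∈ Icc (0 : ℝ) 1) : 0 ≤ f₀.ev (atV K h) c + d * f₁.ev (atV K h) c +
      d ^ 2 * f₂.ev (atV K h) c + d ^ 3 * f₃.ev (atV K h) c := by
  have h0 := hb 0 (by omega) c hc'
  have h1 := hb 1 (by omega) c hc'
  have h2 := hb 2 (by omega) c hc'
  have h3 := hb 3 (by omega) c hc'
  simp [bic] at h0 h1 h2 h3
  have hd0 := hd.1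
  have hd1 := sub_nonneg.2 hd.2
  have a0 := mul_nonneg (pow_nonneg hd1 3) h0
  have a1 := mul_nonneg (mul_nonneg hd0 (pow_nonneg hd1 2)) h1
  have a2 := mul_nonneg (mul_nonneg (pow_nonneg hd0 2) hd1) h2
  have a3 := mul_nonneg (pow_nonneg hd0 3) h3
  linarith

lemma inPt : InPt (qOf σ) (ptC K σ v) (tp σ v) where
  weight_pos := by
    have := pos_of hc h hσ (i := 0) (by omega)
    simpa [posX, xU, xG, atV] using this
  slope_nonpos := (margin hc h hσ).neg.le
  mono := by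
    have := row0 hc h hσ (i := 0) (by omega)
    simpa [rowX, xU, xU1, xp, atV] using this
  conv₀ := by
    have := row0 hc h hσ (i := 1) (by omega)
    simpa [rowX, xk0, xU, xU1, xp, atV, k0] using this
  conv₁ := by
    have := pos_of hc h hσ (i := 4) (by omega)
    simp [posX, xk0, xk1, xU, xU1, xG, xG1, xp, xg, xt, atV] at this
    simp only [k0, k1]
    linarith
  down := by
    have := row0 hc h hσ (i := 2) (by omega)
    simp [rowX, ev_sl] at this
    linarith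
  zero c hc' := by
    have := row_nonneg hc h hσ (i := 4) (by omega) hc'
    simp [rowX, zeroX, xh, xU, xU1, xG, xG1, xp, xg, atV] at this
    simp only [Five.symB, Five.ker, outFive, abs_zero, abs_of_nonneg hc'.1]
    linarith
  gain_diag c hc' := by
    have := row_nonneg hc h hσ (i := 5) (by omega) (x := 2 * c)
      ⟨by linarith [hc'.1], by linarith [hc'.2]⟩
    simp [rowX, X.ev_sub1, xk0, xk1, xk2, xk3, xh, xU, xU1, xG, xG1, xp, xg, atV] at this
    simp only [diag, k0, k1, k2, k3]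
    linarith
  mixed c hc' d hd := by
    have := bic_nonneg hc h hσ (f₀ := zeroX 1) (f₁ := mix1) (f₂ := mix2) (f₃ := top3)
      (fun j hj x hx => by
        interval_cases j
        · exact row_nonneg hc h hσ (i := 6) (by omega) hx
        · exact row_nonneg hc h hσ (i := 7) (by omega) hx
        · exact row_nonneg hc h hσ (i := 8) (by omega) hx
        · exact row_nonneg hc h hσ (i := 9) (by omega) hx) hc' hd
    simp [zeroX, mix1, mix2, top3, xh, xU, xU1, xG, xG1, xp, xg, atV] at this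
    simp only [Five.symB, Five.ker, outFive, abs_neg, abs_of_nonneg hc'.1, abs_of_nonneg hd.1]
    linarith
  outward c hc' d hd := by
    have := bic_nonneg hc h hσ (f₀ := zeroX (-1)) (f₁ := out1) (f₂ := out2) (f₃ := top3)
      (fun j hj x hx => by
        interval_cases j
        · exact row_nonneg hc h hσ (i := 10) (by omega) hx
        · exact row_nonneg hc h hσ (i := 11) (by omega) hx
        · exact row_nonneg hc h hσ (i := 12) (by omega) hx
        · exact row_nonneg hc h hσ (i := 13) (by omega) hx) hc' hd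
    simp [zeroX, out1, out2, top3, xh, xU, xU1, xG, xG1, xp, xg, atV] at this
    simp only [Five.symB, Five.ker, outFive, abs_neg, abs_of_nonneg hc'.1, abs_of_nonneg hd.1]
    linarith
  gain_rows P hP s hs := by
    have hx : s - 1 ∈ Icc (0 : ℝ) 1 := ⟨by linarith [hs.1], by linarith [hs.2]⟩
    have r := fun i (hi : i ≤ 30) => row_nonneg hc h hσ hi hx
    fin_cases hP <;> refine ⟨?_, ?_⟩
    · refine le_of_le_of_eq (r 14 (by omega)) ((ev_gain h _ _ _ _ _ ?_).trans ?_) <;>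
        norm_num [gPiece]
    · refine le_of_le_of_eq (r 15 (by omega)) ((ev_gain h _ _ _ _ _ ?_).trans ?_) <;>
        norm_num [gPiece]
    · refine le_of_le_of_eq (r 16 (by omega)) ((ev_gain h _ _ _ _ _ ?_).trans ?_) <;>
        norm_num [gPiece]
    · refine le_of_le_of_eq (r 17 (by omega)) ((ev_gain h _ _ _ _ _ ?_).trans ?_) <;>
        norm_num [gPiece]
    · refine le_of_le_of_eq (r 18 (by omega)) ((ev_gain h _ _ _ _ _ ?_).trans ?_) <;>
        norm_num [gPiece]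
    · refine le_of_le_of_eq (r 19 (by omega)) ((ev_gain h _ _ _ _ _ ?_).trans ?_) <;>
        norm_num [gPiece]
  pair_first s hs := by
    have hx : s - 1 ∈ Icc (0 : ℝ) 1 := ⟨by linarith [hs.1], by linarith [hs.2]⟩
    have hz : 0 < zc (qOf σ) ((1 + (s - 1)) / 2 - 3 / 5 * (2 - (1 + (s - 1))) / 2) := by
      have := zc_mem hc h hσ hx (r := -(3 / 5)) ⟨by norm_num, by norm_num⟩
      convert this using 2
      ring
    have := row_nonneg hc h hσ (i := 20) (by omega) hx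
    rw [rowX, ev_first h _ hz.ne', show (1 : ℝ) + (s - 1) = s by ring] at this
    rw [show (1 : ℝ) + (s - 1) = s by ring] at hz
    exact nonneg_of_mul_nonneg_left this hz
  pair_rows P hP s hs := by
    have hx : s - 1 ∈ Icc (0 : ℝ) 1 := ⟨by linarith [hs.1], by linarith [hs.2]⟩
    obtain ⟨k, hk, e₀, e₁, eμ, ei⟩ : ∃ k ≤ 2, (pPiece k).1.ev (atV K h) (s - 1) = P.1 ∧
        (pPiece k).2.1.ev (atV K h) (s - 1) = P.2.1 ∧
        (pPiece k).2.2.1.ev (atV K h) (s - 1) = P.2.2 ∧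
        (pPiece k).2.2.2.ev (atV K h) (s - 1) = P.2.2⁻¹ := by
      fin_cases hP
      · exact ⟨0, by omega, by norm_num [pPiece]⟩
      · exact ⟨1, by omega, by norm_num [pPiece]⟩
      · exact ⟨2, by omega, by norm_num [pPiece]⟩
    have hP' : P.1 ∈ Icc (0 : ℝ) 1 ∧ P.2.1 ∈ Icc (0 : ℝ) 1 := by
      fin_cases hP <;> norm_num
    have hA : (xcos (pPiece k).1).ev (atV K h) (s - 1) =
        (1 + (s - 1)) / 2 + P.1 * (2 - (1 + (s - 1))) / 2 := by
      simp [xcos, xs, xh, e₀]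
      ring
    have hB : (xcos (-(pPiece k).2.1)).ev (atV K h) (s - 1) =
        (1 + (s - 1)) / 2 + -P.2.1 * (2 - (1 + (s - 1))) / 2 := by
      simp [xcos, xs, xh, e₁]
      ring
    have zA := zc_mem hc h hσ hx (r := P.1) ⟨by linarith [hP'.1.1], hP'.1.2⟩
    have zB := zc_mem hc h hσ hx (r := -P.2.1) ⟨by linarith [hP'.2.2], by linarith [hP'.2.1]⟩
    have key : ∀ l w : X, 0 ≤ (pairX (pPiece k).2.2.1 (pPiece k).2.2.2 (pPiece k).2.1
        (xcos (pPiece k).1) (xcos (-(pPiece k).2.1)) l w).ev (atV K h) (s - 1) →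
        0 ≤ pairRow (ptC K σ v) (tp σ v) P.2.2 P.2.1 (hUp (qOf σ) (tp σ v) s P.1)
          (hDn (qOf σ) (tp σ v) s P.2.1) s (l.ev (atV K h) (s - 1)) (w.ev (atV K h) (s - 1)) := by
      intro l w hl
      rw [ev_pair h _ (by rw [ei, eμ]) (hA ▸ zA.ne') (hB ▸ zB.ne'), ev_zc, ev_zc, hA, hB] at hl
      have := nonneg_of_mul_nonneg_left hl (mul_pos zA zB)
      rw [e₁, eμ] at this
      rw [show (1 : ℝ) + (s - 1) = s by ring, neg_mul, neg_div, ← sub_eq_add_neg] at this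
      exact this
    have r := fun i (hi : i ≤ 30) => row_nonneg hc h hσ hi hx
    refine ⟨?_, ?_, ?_⟩
    · refine le_of_le_of_eq (key (pPiece k).1 ((pPiece k).1 * (pPiece k).1) ?_) ?_
      · interval_cases k
        · exact r 21 (by omega)
        · exact r 24 (by omega)
        · exact r 27 (by omega)
      · simp [e₀, pow_two]
    · refine le_of_le_of_eq (key (((pPiece k).1 + (pPiece k).2.1) * xh)
        ((pPiece k).1 * (pPiece k).2.1) ?_) ?_
      · interval_cases k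
        · exact r 22 (by omega)
        · exact r 25 (by omega)
        · exact r 28 (by omega)
      · simp [e₀, e₁, xh, div_eq_mul_inv]
    · refine le_of_le_of_eq (key (pPiece k).2.1 ((pPiece k).2.1 * (pPiece k).2.1) ?_) ?_
      · interval_cases k
        · exact r 23 (by omega)
        · exact r 26 (by omega)
        · exact r 29 (by omega)
      · simp [e₁, pow_two]

end Facts

/-- The constant of the slope beyond the diameter. -/
def aOf (K : Spec) (σ : ℝ) : ℝ := -(ptC K σ 1).G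

/-- The second constant beyond the diameter. -/
def bOf (K : Spec) (σ : ℝ) : ℝ := aOf K σ - 2 * (ptC K σ 1).G' / (2 - σ ^ 2)

lemma tp_one {σ : ℝ} : tp σ 1 = 1 := by
  rw [tp, den]
  norm_num

lemma exists_pt (h : σ ∈ Ioo (0 : ℝ) 1) {t : ℝ} (ht : t ∈ Ioc (0 : ℝ) 1) :
    ∃ v, Param σ v ∧ t = tp σ v := by
  obtain ⟨v, hv, htv, -⟩ := exists_param h rfl ht
  exact ⟨v, ⟨h, hv⟩, htv⟩

lemma aSlope_val (h : Param σ v) : (tp σ v * Tan.ao (1 - σ ^ 2) (K.gen σ) (tp σ v ^ 2) +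
    Tan.ae (1 - σ ^ 2) (K.gen σ) (tp σ v ^ 2)) =
      tp σ v ^ 6 * Tan.yl (1 - σ ^ 2) (tp σ v ^ 2) ^ (-6 : ℤ) *
        slope (ptC K σ v) (tp σ v) := by
  rw [← Tan.aSlope_eq (e_mem h.hσ) (q := K.gen σ) (RootGen.isDeriv (e_mem h.hσ) _ _ _) h.t_mem,
    aSlope, zpow_neg, zpow_ofNat, ← div_eq_mul_inv]
  rfl

/-- A checked candidate is a solution on its piece. -/
theorem solFacts (hc : Checked K W) (h : σ ∈ Ioo (0 : ℝ) 1) (hσ : σ ∈ W.set) :
    SolFacts (1 - σ ^ 2) (K.gen σ) (K.four h) (qOf σ) (aOf K σ) (bOf K σ) := by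
  have he := e_mem h
  have h1 : Param σ 1 := ⟨h, ⟨one_pos, le_rfl⟩⟩
  have hd : IsUnit (σ ^ 2) := (pow_pos h.1 2).ne'.isUnit
  have hl := fun i (hi : i ≤ 6) => (hc.last i hi).elim fun _ h' =>
    endOk_sound h' h1 hσ (rep_at K h1)
  have g1 : (ptC K σ 1).G = (Tan.wtOf (1 - σ ^ 2) (K.gen σ)).P 1 := by
    simp only [ptC, ptIn, tp_one]
  have g2 : (ptC K σ 1).G' = σ ^ 2 / 2 * (Tan.wtOf (1 - σ ^ 2) (K.gen σ)).P1 1 := by
    simp only [ptC, ptIn, tp_one, yf]
    ring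
  have hV : (ptC K σ 1).U + tp σ 1 * (ptC K σ 1).G = (Tan.wtOf (1 - σ ^ 2) (K.gen σ)).V 1 := by
    simp only [ptC, ptIn, tp_one]
    ring
  have hr := (h1.r_pos).ne'
  refine
    { isDeriv := RootGen.isDeriv he _ _ _
      c_zero := ?_
      rate_nonneg := ?_
      c_mem := h1.q_mem
      slope_end := by rw [aOf, g1, neg_neg]
      slope_end' := ?_
      a_pos := neg_pos.2 (margin hc h1 hσ).neg
      box := ?_
      down := ?_
      conc := ?_
      inside := ?_ }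
  · show val (K.lstC σ) √(Tan.yl (1 - σ ^ 2) 0) = _
    simp [Spec.lstC, Spec.fix, val, Tan.yl, Spec.gen, RootGen.gen]
  · have := hl 2 (by omega)
    simpa [endX, atV] using this
  · rw [sub_sub_cancel, bOf, g2, show (1 : ℝ) + (1 - σ ^ 2) = 2 - σ ^ 2 by ring]
    field_simp
    ring
  · have x0 := hl 0 (by omega)
    have x1 := hl 1 (by omega)
    have x2 := hl 2 (by omega)
    have x3 := hl 3 (by omega)
    have x4 := hl 4 (by omega)
    have x5 := hl 5 (by omega)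
    have x6 := hl 6 (by omega)
    simp [endX, xU, xG, xG1, xt, xh, atV] at x0 x1 x2 x3 x4 x5 x6
    have eV : 3 * σ ^ 2 * ((ptC K σ 1).U + tp σ 1 * (ptC K σ 1).G) =
        3 * σ ^ 2 * (Tan.wtOf (1 - σ ^ 2) (K.gen σ)).V 1 := by rw [hV]
    refine ⟨⟨?_, ?_⟩, ⟨?_, ?_⟩, neg_nonneg.2 (margin hc h1 hσ).neg.le, ?_, ?_, ?_⟩
    · rw [xlOf, sub_sub_cancel]
      linarith
    · rw [xlOf, sub_sub_cancel]
      linarith
    · rw [kOf, sub_sub_cancel]
      exact div_nonneg (mul_nonneg x2 (pow_nonneg (pow_nonneg h.1.le 2) 6)) (by linarith [he.1])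
    · rw [kOf, sub_sub_cancel, show (1 : ℝ) + (1 - σ ^ 2) = 2 - σ ^ 2 by ring, div_eq_mul_inv,
        mul_inv]
      linarith
    · rw [aOf, sub_sub_cancel]
      linarith
    · rw [bOf, aOf, div_eq_mul_inv]
      linarith
    · rw [bOf, aOf, sub_sub_cancel, div_eq_mul_inv]
      linarith
  · intro t ht
    obtain ⟨v, hp, rfl⟩ := exists_pt h ht
    rw [aSlope_val hp]
    exact mul_nonpos_of_nonneg_of_nonpos (mul_nonneg (pow_nonneg hp.t_pos.le 6)
      (zpow_nonneg (Tan.yl_pos he (sq_mem' hp)).le _)) (inPt hc hp hσ).down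
  · intro t ht
    obtain ⟨v, hp, rfl⟩ := exists_pt h (Ioo_subset_Ioc_self ht)
    have := row0 hc hp hσ (i := 30) (by omega)
    simp [rowX, concX, ev_zc, ev_sl, xq, xt, xh, atV] at this
    rw [aSlope_val hp, zpow_neg, zpow_ofNat]
    simp only [nq]
    linarith
  · intro t ht
    obtain ⟨v, hp, rfl⟩ := exists_pt h ht
    have h4 := pos_of hc hp hσ (i := 4) (by omega)
    simp [posX, xk0, xk1, xU, xU1, xG, xG1, xp, xg, xt, atV] at h4
    exact (inPt hc hp hσ).inFacts (margin hc hp hσ) (by simp only [k0, k1]; linarith) hp.q_mem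
      hp.t_mem
where
  sq_mem' {v : ℝ} (hp : Param σ v) : tp σ v ^ 2 ∈ Icc (0 : ℝ) 1 :=
    ⟨sq_nonneg _, pow_le_one₀ hp.t_pos.le hp.t_le⟩

/-- Checked pieces covering the unit interval give both certificates. -/
theorem certs_seven_of_checked
    (h : ∀ σ ∈ Ioo (0 : ℝ) 1, ∃ K W, Checked K W ∧ σ ∈ W.set) :
    Cert 7 ∧ Rigid.StrictCert 7 := by
  refine certs_seven fun e he => ?_
  obtain ⟨σ, hσ, rfl⟩ : ∃ σ ∈ Ioo (0 : ℝ) 1, e = 1 - σ ^ 2 := by
    have hd : 0 < 1 - e := sub_pos.2 he.2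
    refine ⟨√(1 - e), ⟨sqrt_pos.2 hd, ?_⟩, by rw [sq_sqrt hd.le]; ring⟩
    rw [sqrt_lt' one_pos]
    linarith [he.1]
  obtain ⟨K, W, hc, hW⟩ := h σ hσ
  exact ⟨_, _, _, _, _, solFacts hc hσ hW⟩

end Vale.Agent.P219.CH.Relax.Seven.Cand
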